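import Vale.Agent.P078.Colours.Frame
import Vale.Agent.P078.Colour.Rule

/-!
# The rule at every point of the spectrum: consistency along orbits, labels, moments
-/

namespace Vale.Agent.P078.General.Single.Colours

open scoped InnerProductSpace Topology ComplexOrder
open Filter WeakDual Vale.Agent.P078.General.Orbit

universe u

variable {H : Type u} [NormedAddCommGroup H] [InnerProductSpace ℂ H] [CompleteSpace H]
variable {M A : VonNeumannAlgebra H} {φ : (H →L[ℂ] H) →ₗ[ℂ] ℂ}

/-- The empty word. -/
def nilW (N L : ℕ) : Word N L := ⟨⟨0, by omega⟩, Fin.elim0⟩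

theorem wl_nilW (N L : ℕ) : wl (nilW N L) = [] := rfl

variable {N : ℕ} {G : Gens M A N} {L : ℕ} {χ : Spec A} {π : Finset (Word N L × Word N L)}

/-- The root is the vertex of the empty word. -/
def IsRoot (π : Finset (Word N L × Word N L)) (a : Vert L π) : Prop := (a.1, nilW N L) ∈ π

theorem Gens.wops_nil : G.wops L (nilW N L) = 1 := by
  rw [Gens.wops, wl_nilW]
  rfl

theorem Gens.isRoot_iff (hA : IsMasa M A) (hπ : G.pat L χ = π) {a : Vert L π} :
    IsRoot π a ↔ G.vpt χ a = χ := by
  subst hπ
  rw [IsRoot, G.mem_pat, G.wops_nil]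
  refine ⟨fun h => h.2.2.trans (pt_one hA χ), fun h => ⟨G.dom_uop rfl a, by simp [dom], ?_⟩⟩
  rw [pt_one hA χ]
  exact h

theorem Gens.exists_root (hA : IsMasa M A) (hπ : G.pat L χ = π) : ∃ a : Vert L π, G.vpt χ a = χ :=
  G.exists_vert hA hπ (G.reach_mono (Nat.zero_le L) (show G.Reach 0 χ χ from rfl))

/-- The field of seeds seen at `χ`. -/
noncomputable def Gens.field (G : Gens M A N) {β : Type} (Q : Part A (1 : H →L[ℂ] H))
    (c : Fin Q.n → β) (χ : Spec A) (π : Finset (Word N L × Word N L)) : Vert L π → β :=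
  fun a => c (cellAt Q (G.vpt χ a))

section Rule

variable {p : Local.Par} {G : Gens M A p.D} {x : H →L[ℂ] H} {π π' : Finset (Word p.D L × Word p.D L)}

/-- The colour at a vertex, computed at `χ`, agrees with the colour of the root computed at its
point. -/
theorem Gens.colour_consistent (hφ : IsCState M A φ) (hx : Operand φ G x) (hp : p.Ok)
    (hπ : G.pat L χ = π) {b : Vert L π} (hπ' : G.pat L (G.vpt χ b) = π') {o' : Vert L π'}
    (ho' : G.vpt (G.vpt χ b) o' = G.vpt χ b) {j : ℕ} (hj : G.Reach j χ (G.vpt χ b))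
    (hjd : j + p.depend ≤ L) (Q : Part A (1 : H →L[ℂ] H)) (c : Fin Q.n → Local.Colour.Site p) :
    Local.Colour.colourOf hp (G.net hφ hx χ hπ) (G.field Q c χ π) b =
      Local.Colour.colourOf hp (G.net hφ hx (G.vpt χ b) hπ') (G.field Q c (G.vpt χ b) π') o' := by
  classical
  have hA := hφ.masa
  set ψ := G.vpt χ b with hψ
  set d := p.depend
  have hball : ∀ {a : Vert L π}, a ∈ (G.net hφ hx χ hπ).ball b d ↔ G.Reach d ψ (G.vpt χ a) :=
    G.mem_ball_net hφ hx hπ hj hjd
  have hball' : ∀ {a : Vert L π'}, a ∈ (G.net hφ hx ψ hπ').ball o' d ↔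
      G.Reach d ψ (G.vpt ψ a) := fun {a} => by
    have h := G.mem_ball_net hφ hx hπ' (b := o') (j := 0) (show G.Reach 0 ψ (G.vpt ψ o') from ho')
      (k := d) (by omega) (a := a)
    rwa [ho'] at h
  let f : Vert L π → Vert L π' := fun a =>
    if h : ∃ a', G.vpt ψ a' = G.vpt χ a then h.choose else o'
  have hf : ∀ a, G.Reach d ψ (G.vpt χ a) → G.vpt ψ (f a) = G.vpt χ a := fun a ha => by
    have h : ∃ a', G.vpt ψ a' = G.vpt χ a := G.exists_vert hA hπ' (G.reach_mono (by omega) ha)
    simp only [f, dif_pos h]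
    exact h.choose_spec
  have hfb : f b = o' := G.vpt_inj hπ' ((hf b (G.reach_mono (Nat.zero_le d)
    (show G.Reach 0 ψ (G.vpt χ b) from rfl))).trans ho'.symm)
  -- the phases
  have hbM := G.pn_uop hA b
  have hz : ∀ a, IsPN M A (G.uop L (f a) * G.uop L b) := fun a => (G.pn_uop hA (f a)).mul hA hbM
  have hphase : ∀ a : Vert L π, ∃ l : ℂ, ‖l‖ = 1 ∧ (G.Reach d ψ (G.vpt χ a) →
      FEq φ χ (G.uop L (f a) * G.uop L b) (l • G.uop L a)) := by
    intro a
    by_cases ha : G.Reach d ψ (G.vpt χ a)
    · have hd : χ ∈ dom A (G.uop L (f a) * G.uop L b) :=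
        (dom_mul hA (G.pn_uop hA _) hbM).2 ⟨G.dom_uop hπ b, G.dom_uop hπ' (f a)⟩
      obtain ⟨l, hl, h⟩ := fEq_same hφ (G.pn_uop hA a) (hz a) (χ := χ)
        ⟨G.dom_uop hπ a, hd, by
          rw [pt_mul hA (G.pn_uop hA _) hbM hd]
          exact (hf a ha).symm⟩
      exact ⟨l, hl, fun _ => h⟩
    · exact ⟨1, by simp, fun h => absurd h ha⟩
  choose l hl hlF using hphase
  have key := Local.Colour.colourOf_local hp (G.net hφ hx χ hπ) (G.net hφ hx ψ hπ')
    (G.field Q c χ π) (G.field Q c ψ π') b f (fun a => starRingEnd ℂ (l a))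
    (fun a ha a' ha' e => G.vpt_inj hπ (by rw [← hf a (hball.1 ha), ← hf a' (hball.1 ha'), e]))
    (by
      ext a'
      rw [Finset.mem_image, hfb, hball']
      constructor
      · rintro ⟨a, ha, rfl⟩
        rw [hf a (hball.1 ha)]
        exact hball.1 ha
      · intro ha'
        obtain ⟨a, ha⟩ := G.exists_vert hA hπ (G.reach_mono hjd (G.reach_trans hj ha'))
        refine ⟨a, hball.2 (ha ▸ ha'), G.vpt_inj hπ' ?_⟩
        rw [hf a (ha ▸ ha'), ha])
    (fun a ha a' ha' => by
      have hRa := hball.1 ha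
      have hRa' := hball.1 ha'
      refine ⟨?_, ?_⟩
      · show a' ∈ nbP π a ↔ f a' ∈ nbP π' (f a)
        rw [G.mem_nbP hA hπ, G.mem_nbP hA hπ', hf a hRa, hf a' hRa']
      · show G.entry φ x ψ (f a) (f a') = _ * G.entry φ x χ a a' * _
        have hua := (G.pn_uop hA (f a)).mem
        have hua' := (G.pn_uop hA (f a')).mem
        have hxu := mul_mem hx.mem hua'
        have h1 : G.entry φ x ψ (f a) (f a') =
            fib φ χ (G.uop L (f a) * G.uop L b) (x * (G.uop L (f a') * G.uop L b)) := by
          rw [Gens.entry, fib, hψ, Gens.vpt, ev_pt hA hbM (G.dom_uop hπ b)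
            (hφ.expE_mem (mul_mem (star_mem hua) hxu)), ← hbM.expE_conj hφ (mul_mem (star_mem hua) hxu),
            fib, star_mul]
          simp only [mul_assoc]
        have hm := (G.pn_uop hA a).mem
        have hm' := (G.pn_uop hA a').mem
        have h2 := (hlF a' hRa').mul_left hφ (hz a').mem (General.smul_mem' M hm' (l a')) hx.mem
        have hlm : x * (l a' • G.uop L a') ∈ M := mul_mem hx.mem (General.smul_mem' M hm' (l a'))
        rw [h1, h2.fib_right hφ (mul_mem hx.mem (hz a').mem) hlm (hz a).mem, ← fib_conj hφ hlm (hz a).mem,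
          (hlF a hRa).fib_right hφ (hz a).mem (General.smul_mem' M hm (l a)) hlm,
          fib_conj hφ hlm (General.smul_mem' M hm (l a)), mul_smul_comm,
          fib_smul_left hφ hm (General.smul_mem' M (mul_mem hx.mem hm') (l a')),
          fib_smul_right hφ hm (mul_mem hx.mem hm'), Complex.conj_conj, Gens.entry]
        ring)
    (fun a _ => by simp [hl a])
    (fun a ha => by
      show c (cellAt Q (G.vpt ψ (f a))) = c (cellAt Q (G.vpt χ a))
      rw [hf a (hball.1 ha)])
  rw [hfb] at key
  exact key.symm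

/-- A label: a pattern and the colour of its root as a function of the seeds. -/
abbrev Label (p : Local.Par) (L : ℕ) : Type :=
  Σ π : Finset (Word p.D L × Word p.D L), ((Vert L π → Local.Colour.Site p) → Fin p.r)

/-- The label at `χ`. -/
noncomputable def Gens.label (hφ : IsCState M A φ) (hx : Operand φ G x) (hp : p.Ok) (L : ℕ)
    (χ : Spec A) : Label p L :=
  ⟨G.pat L χ, fun F => Local.Colour.colourOf hp (G.net hφ hx χ rfl) F
    (G.exists_root hφ.masa (rfl : G.pat L χ = G.pat L χ)).choose⟩

theorem Gens.label_iff (hφ : IsCState M A φ) (hx : Operand φ G x) (hp : p.Ok) (k : Label p L)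
    (χ : Spec A) : G.label hφ hx hp L χ = k ↔ ∃ h : G.pat L χ = k.1, ∀ o, IsRoot k.1 o →
      ∀ F, Local.Colour.colourOf hp (G.net hφ hx χ h) F o = k.2 F := by
  have hA := hφ.masa
  have hroot := (G.exists_root hA (rfl : G.pat L χ = G.pat L χ)).choose_spec
  constructor
  · rintro rfl
    refine ⟨rfl, fun o ho F => ?_⟩
    rw [show o = (G.exists_root hA (rfl : G.pat L χ = G.pat L χ)).choose from
      G.vpt_inj rfl (((G.isRoot_iff hA rfl).1 ho).trans hroot.symm)]
    rfl
  · obtain ⟨π, Φ⟩ := k
    rintro ⟨(rfl : G.pat L χ = π), h⟩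
    simp only [Gens.label]
    congr 1
    funext F
    exact h _ ((G.isRoot_iff hA rfl).2 hroot) F

theorem continuous_entry (φ : (H →L[ℂ] H) →ₗ[ℂ] ℂ) (x : H →L[ℂ] H) (a b : Vert L π) :
    Continuous fun χ : Spec A => G.entry φ x χ a b :=
  continuous_ev _

theorem Gens.baire_label (hφ : IsCState M A φ) (hx : Operand φ G x) (hp : p.Ok) (k : Label p L) :
    BaireMeasurableSet {χ : Spec A | G.label hφ hx hp L χ = k} := by
  have hA := hφ.masa
  borelize (Spec A)
  set Ω := {χ : Spec A // G.pat L χ = k.1}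
  have hc : MeasurableSet {χ : Spec A | G.pat L χ = k.1} :=
    (isClopen_patt hφ (fun w => G.pn_wordOp hA _) k.1).1.measurableSet
  have hm : MeasurableSet {w : Ω | ∀ o, IsRoot k.1 o →
      ∀ F, Local.Colour.colourOf hp (G.net hφ hx w.1 w.2) F o = k.2 F} := by
    classical
    have e : {w : Ω | ∀ o, IsRoot k.1 o →
        ∀ F, Local.Colour.colourOf hp (G.net hφ hx w.1 w.2) F o = k.2 F} =
        ⋂ (o : Vert L k.1), ⋂ F, {w : Ω | IsRoot k.1 o →
          Local.Colour.colourOf hp (G.net hφ hx w.1 w.2) F o = k.2 F} := by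
      ext w
      simp only [Set.mem_iInter, Set.mem_ofPred_eq]
      exact ⟨fun h o F ho => h o ho F, fun h o ho F => h o F ho⟩
    rw [e]
    refine MeasurableSet.iInter fun o => MeasurableSet.iInter fun F => ?_
    by_cases ho : IsRoot k.1 o
    · simp only [ho, forall_const]
      exact Local.Colour.measurableSet_colourOf hp (fun w : Ω => G.net hφ hx w.1 w.2)
        (fun _ => rfl) (fun a b => (continuous_entry φ x a b).measurable.comp measurable_subtype_coe)
        F o _
    · simp [ho]
  have e : {χ : Spec A | G.label hφ hx hp L χ = k} = Subtype.val '' {w : Ω | ∀ o, IsRoot k.1 o →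
      ∀ F, Local.Colour.colourOf hp (G.net hφ hx w.1 w.2) F o = k.2 F} := by
    ext χ
    simp only [Set.mem_ofPred_eq, Set.mem_image, G.label_iff hφ hx hp k χ]
    exact ⟨fun ⟨h, h'⟩ => ⟨⟨χ, h⟩, h', rfl⟩, fun ⟨⟨ψ, h⟩, h', e⟩ => by subst e; exact ⟨h, h'⟩⟩
  rw [e]
  exact (MeasurableSet.subtype_image hc hm).baireMeasurableSet

/-- The pinched power at a point where the colours near the root are right. -/
theorem Gens.fib_pinch_pow (hφ : IsCState M A φ) (hx : Operand φ G x) (hπ : G.pat L χ = π)
    {o : Vert L π} (ho : G.vpt χ o = χ) {P : Fin p.r → H →L[ℂ] H} (hP : IsPart A 1 P)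
    (col : Vert L π → Fin p.r) {n : ℕ} (hn : n < L)
    (hcol : ∀ b : Vert L π, G.Reach n χ (G.vpt χ b) → ∀ i,
      ev (G.vpt χ b) (P i) = if col b = i then 1 else 0) :
    fib φ χ (pinch P x ^ n) (pinch P x ^ n) =
      ((∑ u, Complex.normSq (Local.Colour.pvec (G.net hφ hx χ hπ) col o n u) : ℝ) : ℂ) := by
  classical
  have hA := hφ.masa
  set Nt := G.net hφ hx χ hπ
  set v := Local.Colour.pvec Nt col o
  have hm : ∀ a : Vert L π, G.uop L a ∈ M := fun a => (G.pn_uop hA a).mem
  have hPM : ∀ i, P i ∈ M := fun i => hA.le _ (hP.mem i)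
  set Y := pinch P x with hY
  have hYM : Y ∈ M := sum_mem fun i _ => mul_mem (mul_mem (hPM i) hx.mem) (hPM i)
  have hcomb : ∀ w : Vert L π → ℂ, ∑ a, w a • G.uop L a ∈ M := fun w =>
    sum_mem fun a _ => General.smul_mem' M (hm a) _
  obtain ⟨t, ht, ht1⟩ := fEq_same hφ (G.pn_uop hA o) (IsPN.one hA) (χ := χ)
    ⟨G.dom_uop hπ o, by simp [dom], ho.trans (pt_one hA χ).symm⟩
  have hball : ∀ {k : ℕ}, k ≤ L → ∀ {a}, a ∈ Nt.ball o k → G.Reach k χ (G.vpt χ a) :=
    fun {k} hk {a} ha => by
      have := (G.mem_ball_net hφ hx hπ (j := 0) (show G.Reach 0 χ (G.vpt χ o) from ho)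
        (by omega)).1 ha
      rwa [ho] at this
  have hcol' : ∀ b : Vert L π, G.Reach n χ (G.vpt χ b) → ∀ i,
      FEq φ χ (P i * G.uop L b) ((if col b = i then (1 : ℂ) else 0) • G.uop L b) := fun b hb i => by
    rw [← hcol b hb i]
    exact fEq_A_mul hφ (G.pn_uop hA b) (G.dom_uop hπ b) (hP.mem i)
  -- one application of the pinching
  have hstep : ∀ {k : ℕ}, k < n → ∀ b, G.Reach k χ (G.vpt χ b) → FEq φ χ (Y * G.uop L b)
      (∑ a, (if col a = col b then G.entry φ x χ a b else 0) • G.uop L a) := by
    intro k hk b hb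
    have hbn := G.reach_mono hk.le hb
    have hterm : ∀ i, FEq φ χ (P i * x * P i * G.uop L b) ((if col b = i then (1 : ℂ) else 0) •
        ∑ a, (if col a = i then G.entry φ x χ a b else 0) • G.uop L a) := by
      intro i
      have h1 := (hcol' b hbn i).mul_left hφ (mul_mem (hPM i) (hm b)) (General.smul_mem' M (hm b) _)
        (mul_mem (hPM i) hx.mem)
      rw [← mul_assoc, mul_smul_comm, mul_assoc (P i) x (G.uop L b)] at h1
      have h2 : FEq φ χ (P i * (x * G.uop L b))
          (∑ a, (if col a = i then G.entry φ x χ a b else 0) • G.uop L a) := by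
        have h3 := (G.mul_uop hφ hx hπ hb (by omega)).mul_left hφ (mul_mem hx.mem (hm b))
          (hcomb _) (hPM i)
        refine h3.trans hφ (mul_mem (hPM i) (mul_mem hx.mem (hm b))) (mul_mem (hPM i) (hcomb _))
          (hcomb _) ?_
        rw [Finset.mul_sum]
        refine FEq.sum hφ _ (fun a => mul_mem (hPM i) (General.smul_mem' M (hm a) _))
          (fun a => General.smul_mem' M (hm a) _) fun a _ => ?_
        by_cases he : G.entry φ x χ a b = 0
        · simp [he, FEq.rfl' hφ]
        · have ha : G.Reach n χ (G.vpt χ a) := G.reach_mono (j := k + 1) hk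
            (Or.inr ⟨_, hb, G.step_of_entry hφ hx hπ he⟩)
          have h4 := ((hcol' a ha i)).mul_left hφ (mul_mem (hPM i) (hm a))
            (General.smul_mem' M (hm a) _) (General.smul_one_mem M (G.entry φ x χ a b))
          simp only [smul_one_mul, smul_smul] at h4
          rw [mul_smul_comm]
          simpa [mul_ite] using h4
      have h2' : FEq φ χ ((if col b = i then (1 : ℂ) else 0) • (P i * (x * G.uop L b)))
          ((if col b = i then (1 : ℂ) else 0) •
            ∑ a, (if col a = i then G.entry φ x χ a b else 0) • G.uop L a) := by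
        have := h2.mul_left hφ (mul_mem (hPM i) (mul_mem hx.mem (hm b))) (hcomb _)
          (General.smul_one_mem M (if col b = i then (1 : ℂ) else 0))
        rwa [smul_one_mul, smul_one_mul] at this
      exact h1.trans hφ (mul_mem (mul_mem (mul_mem (hPM i) hx.mem) (hPM i)) (hm b))
        (General.smul_mem' M (mul_mem (hPM i) (mul_mem hx.mem (hm b))) _)
        (General.smul_mem' M (hcomb _) _) h2'
    have hsum := FEq.sum hφ (Finset.univ : Finset (Fin p.r))
      (fun i => mul_mem (mul_mem (mul_mem (hPM i) hx.mem) (hPM i)) (hm b))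
      (fun i => General.smul_mem' M (hcomb _) _) fun i _ => hterm i
    rw [← Finset.sum_mul] at hsum
    have e : ∑ i, (if col b = i then (1 : ℂ) else 0) •
        ∑ a, (if col a = i then G.entry φ x χ a b else 0) • G.uop L a =
        ∑ a, (if col a = col b then G.entry φ x χ a b else 0) • G.uop L a := by
      rw [Finset.sum_eq_single (col b) (fun i _ hi => by rw [if_neg hi.symm, zero_smul])
        (fun h => absurd (Finset.mem_univ _) h), if_pos rfl, one_smul]
    rw [e] at hsum
    exact hsum
  -- powers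
  have hpow : ∀ k ≤ n, FEq φ χ (Y ^ k) (∑ a, (t * v k a) • G.uop L a) := by
    intro k
    induction k with
    | zero =>
      intro _
      rw [pow_zero]
      have e : ∑ a, (t * v 0 a) • G.uop L a = t • G.uop L o := by
        rw [Finset.sum_eq_single o (fun a _ ha => by simp [v, Local.Colour.pvec, ha]) (by simp)]
        simp [v, Local.Colour.pvec]
      rw [e]
      exact ht1
    | succ k ih =>
      intro hk
      have hk' : k < n := hk
      rw [pow_succ']
      have h1 := (ih (by omega)).mul_left hφ (pow_mem hYM k) (hcomb _) hYM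
      refine h1.trans hφ (mul_mem hYM (pow_mem hYM k)) (mul_mem hYM (hcomb _)) (hcomb _) ?_
      rw [Finset.mul_sum]
      have e : ∑ a, (t * v (k + 1) a) • G.uop L a = ∑ b, (t * v k b) •
          ∑ a, (if col a = col b then G.entry φ x χ a b else 0) • G.uop L a := by
        simp only [Finset.smul_sum, smul_smul]
        rw [Finset.sum_comm]
        refine Finset.sum_congr rfl fun a _ => ?_
        rw [← Finset.sum_smul]
        congr 1
        show t * Local.Colour.pmul Nt col (v k) a = _
        rw [Local.Colour.pmul, Finset.mul_sum]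
        refine Finset.sum_congr rfl fun b _ => ?_
        split_ifs
        · show t * (G.entry φ x χ a b * v k b) = _
          ring
        · simp
      rw [e]
      refine FEq.sum hφ _ (fun b => mul_mem hYM (General.smul_mem' M (hm b) _))
        (fun b => General.smul_mem' M (hcomb _) _) fun b _ => ?_
      by_cases hv : v k b = 0
      · simp [hv, FEq.rfl' hφ]
      · have hb : G.Reach k χ (G.vpt χ b) := hball (by omega) (by
          by_contra hb
          exact hv (Local.Colour.pvec_supp Nt col o k b hb))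
        have := (hstep hk' b hb).mul_left hφ (mul_mem hYM (hm b)) (hcomb _)
          (General.smul_one_mem M (t * v k b))
        rwa [smul_one_mul, smul_one_mul, ← mul_smul_comm] at this
  rw [(hpow n le_rfl).fib_self hφ (pow_mem hYM n) (hcomb _), G.fib_comb_self hφ hπ]
  congr 1
  refine Finset.sum_congr rfl fun a _ => ?_
  rw [Complex.normSq_mul, Complex.normSq_eq_norm_sq t, ht, one_pow, one_mul]

end Rule

end Vale.Agent.P078.General.Single.Colours
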