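import Vale.Agent.P078.Colours.Loc
import Vale.Agent.P078.Free.Diag

/-!
# Colours given by functions of the seeds at separated points

A centred function of the seeds at separated points, times a monomial, is a combination of words.
So a partition with separated families and `0,1` functions of mean `t` gives `ColourData`.
-/

namespace Vale.Agent.P078.General.Single.Colours

open scoped InnerProductSpace Topology ComplexOrder
open Filter WeakDual Vale.Agent.P078.General.Orbit Vale.Agent.P078.General.Final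

universe u

variable {H : Type u} [NormedAddCommGroup H] [InnerProductSpace ℂ H] [CompleteSpace H]
variable {M A : VonNeumannAlgebra H} {φ : (H →L[ℂ] H) →ₗ[ℂ] ℂ} {β : Type} [Fintype β]
variable {ι : Type} [Fintype ι] {f : H →L[ℂ] H} {u : ι → H →L[ℂ] H}

/-- An element of `A` agreeing with `g` of the seeds on `f` and vanishing off `f` is `loc`. -/
theorem loc_eq (hA : IsMasa M A) (hS : Sep M A f u) (g : (ι → β) → ℝ)
    (Q : Part A (1 : H →L[ℂ] H)) (c : Fin Q.n → β) {x : H →L[ℂ] H} (hx : x ∈ A)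
    (h1 : ∀ χ ∈ clop A f, ev χ x = ((g (seedAt Q c u χ) : ℝ) : ℂ))
    (h2 : ∀ χ ∉ clop A f, ev χ x = 0) : loc A f u g Q c = x := by
  refine eq_of_ev hA.comm (loc_mem hA hS.mem hS.proj hS.pn g Q c) hx fun χ => ?_
  rw [ev_loc hA hS.mem hS.proj hS.pn g Q c χ]
  split_ifs with h
  exacts [(h1 χ h).symm, (h2 χ h).symm]

theorem loc_sum (hA : IsMasa M A) (hS : Sep M A f u) {γ : Type} (T : Finset γ) (a : γ → ℝ)
    (h : γ → (ι → β) → ℝ) (Q : Part A (1 : H →L[ℂ] H)) (c : Fin Q.n → β) :
    loc A f u (fun s => ∑ j ∈ T, a j * h j s) Q c = ∑ j ∈ T, (a j : ℂ) • loc A f u (h j) Q c := by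
  have hm : ∀ j, (a j : ℂ) • loc A f u (h j) Q c ∈ A := fun j =>
    General.smul_mem' A (loc_mem hA hS.mem hS.proj hS.pn _ Q c) _
  refine loc_eq hA hS _ Q c (sum_mem fun j _ => hm j) (fun χ hχ => ?_) fun χ hχ => ?_ <;>
    rw [ev_sum χ T hm]
  · push_cast
    refine Finset.sum_congr rfl fun j _ => ?_
    rw [ev_smul χ (loc_mem hA hS.mem hS.proj hS.pn _ Q c), ev_loc hA hS.mem hS.proj hS.pn, if_pos hχ]
  · refine Finset.sum_eq_zero fun j _ => ?_
    rw [ev_smul χ (loc_mem hA hS.mem hS.proj hS.pn _ Q c), ev_loc hA hS.mem hS.proj hS.pn, if_neg hχ,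
      mul_zero]

theorem loc_sub_const (hA : IsMasa M A) (hS : Sep M A f u) (g : (ι → β) → ℝ) (t : ℝ)
    (Q : Part A (1 : H →L[ℂ] H)) (c : Fin Q.n → β) :
    loc A f u (fun s => g s - t) Q c = loc A f u g Q c - (t : ℂ) • f := by
  have hl := loc_mem hA hS.mem hS.proj hS.pn g Q c
  refine loc_eq hA hS _ Q c (sub_mem hl (General.smul_mem' A hS.mem _)) (fun χ hχ => ?_)
    fun χ hχ => ?_ <;> rw [ev_sub χ hl (General.smul_mem' A hS.mem _), ev_smul χ hS.mem,
      ev_loc hA hS.mem hS.proj hS.pn]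
  · rw [if_pos hχ, mem_clop.1 hχ]; push_cast; ring
  · rw [if_neg hχ, (ev_eq_zero_iff hS.mem hS.proj).2 hχ]; simp

theorem inLet_sum {γ : Type*} {Mon : (H →L[ℂ] H) → Prop} (h0 : InLet A Mon (fun _ _ => (0 : H →L[ℂ] H) : SFam A β))
    (T : Finset γ) {F : γ → SFam A β} (h : ∀ j ∈ T, InLet A Mon (F j)) :
    InLet A Mon fun Q c => ∑ j ∈ T, F j Q c := by
  classical
  induction T using Finset.induction_on with
  | empty => exact h0.congr (.of_forall fun Q c => by simp)
  | insert j T hj ih =>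
    simp only [Finset.sum_insert hj]
    exact (h j (Finset.mem_insert_self j T)).add (ih fun i hi => h i (Finset.mem_insert_of_mem hi))

omit [Fintype β] in
theorem ev_cellOp (Q : Part A (1 : H →L[ℂ] H)) (c : Fin Q.n → β) (g : β → ℝ) (χ : Spec A) :
    ev χ (cellOp Q c g) = ((g (c (cellAt Q χ)) : ℝ) : ℂ) := by
  classical
  rw [cellOp, ev_sum χ _ fun j => General.smul_mem' A (Q.isPart.mem j) _,
    Finset.sum_eq_single (cellAt Q χ)]
  · rw [ev_smul χ (Q.isPart.mem _), mem_clop.1 (mem_cellAt Q χ), mul_one]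
  · intro j _ hj
    rw [ev_smul χ (Q.isPart.mem _),
      (ev_eq_zero_iff (Q.isPart.mem j) (Q.isPart.proj j)).2 fun h => hj (eq_cellAt Q h).symm,
      mul_zero]
  · simp

omit [Fintype ι] in
/-- The value of a product of conjugates on `f`. -/
theorem ev_dX (hA : IsMasa M A) (hS : Sep M A f u) {χ : Spec A} (hχ : χ ∈ clop A f) :
    ∀ (L : List ι) (X : ℕ → H →L[ℂ] H) (a : ι → ℂ), (∀ z, X z ∈ A) →
      (∀ (z : ℕ) (hz : z < L.length), ev (pt (u L[z]) χ) (X z) = a L[z]) →
      ev χ (dX (L.map u) X) = (L.map a).prod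
  | [], X, a, _, _ => by simp [dX]
  | i :: L, X, a, hX, h => by
    have hpn : ∀ S ∈ L.map u, IsPN M A S := fun S hSm => by
      obtain ⟨j, -, rfl⟩ := List.mem_map.1 hSm
      exact hS.pn j
    rw [List.map_cons, dX, ev_mul χ ((hS.pn i).conj' _ (hX 0)) (dX_memA hpn fun z => hX (z + 1)),
      ev_dX hA hS hχ L (fun z => X (z + 1)) a (fun z => hX (z + 1))
        (fun z hz => h (z + 1) (Nat.succ_lt_succ hz)),
      List.map_cons, List.prod_cons, ← ev_pt hA (hS.pn i) (hS.dom χ hχ i) (hX 0)]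
    have := h 0 (by simp)
    simp only [List.getElem_cons_zero] at this
    rw [this]

/-- A product of centred one-point functions, times a monomial, is a word. -/
theorem inLet_prod (hφ : IsCState M A φ) {m : H →L[ℂ] H} (hm : MonP M A m) (hS : Sep M A f u)
    (L : List ι) (hL : L.Nodup) (hne : L ≠ []) (h : ι → β → ℝ) (h0 : ∀ i, av (h i) = 0) :
    InLet A (MonP M A)
      (fun Q c => m * loc A f u (fun s => (L.map fun i => h i (s i)).prod) Q c) := by
  classical
  have hA := hφ.masa
  have hpn : ∀ S ∈ L.map u, IsPN M A S := fun S hSm => by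
    obtain ⟨j, -, rfl⟩ := List.mem_map.1 hSm
    exact hS.pn j
  refine InLet.word ⟨(L.map u).length, Single.gaps m (L.map u) f,
    fun x => h (L.getD x (L.head hne)), by simpa using List.length_pos_of_ne_nil hne,
    gaps_mon hA _ _ _ hpn hm (monP_memA hA hS.mem), fun x _ => h0 _,
    fun x y hxy hy => ?_, fun Q c => ?_⟩
  · refine (hS.eventually_cells hφ).mono fun Q hQ t ht => ?_
    rw [pw_gaps]
    suffices e : dX (L.map u) (fun z => Q.p (t z)) * f = 0 by rw [e, mul_zero]
    have hX : ∀ z, Q.p (t z) ∈ A := fun z => Q.isPart.mem _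
    refine eq_of_ev hA.comm (mul_mem (dX_memA hpn hX) hS.mem) (zero_mem A) fun χ => ?_
    rw [ev_zero, ev_mul χ (dX_memA hpn hX) hS.mem]
    by_cases hχ : χ ∈ clop A f
    swap
    · rw [(ev_eq_zero_iff hS.mem hS.proj).2 hχ, mul_zero]
    have hy' : y < L.length := by simpa using hy
    have hx' : x < L.length := hxy.trans hy'
    obtain ⟨R, hR, e⟩ := dX_factor_two hA (L.map u) (fun z => Q.p (t z)) hpn hX x y
      (by simpa using hx') (by simpa using hy') hxy
    have hc : ∀ j, ∀ b ∈ A, star (u j) * b * u j ∈ A := fun j => (hS.pn j).conj'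
    simp only [List.getElem_map] at e
    rw [e, ev_mul χ hR (mul_mem (hc _ _ (hX x)) (hc _ _ (hX y))),
      ev_mul χ (hc _ _ (hX x)) (hc _ _ (hX y)),
      ← ev_pt hA (hS.pn _) (hS.dom χ hχ _) (hX x), ← ev_pt hA (hS.pn _) (hS.dom χ hχ _) (hX y)]
    by_cases h1 : pt (u L[x]) χ ∈ clop A (Q.p (t x))
    · by_cases h2 : pt (u L[y]) χ ∈ clop A (Q.p (t y))
      · have := hQ χ hχ L[x] L[y] (by rw [eq_cellAt Q h1, eq_cellAt Q h2, ht])
        exact absurd ((hL.getElem_inj_iff).1 this) hxy.ne
      · rw [(ev_eq_zero_iff (hX y) (Q.isPart.proj _)).2 h2]; simp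
    · rw [(ev_eq_zero_iff (hX x) (Q.isPart.proj _)).2 h1]; simp
  · rw [pw_gaps]
    dsimp only
    congr 1
    have hU : ∀ x, cells Q c (fun x => h (L.getD x (L.head hne))) x ∈ A := fun x =>
      cellOp_memA Q c _
    refine loc_eq hA hS _ Q c (mul_mem (dX_memA hpn hU) hS.mem) (fun χ hχ => ?_) fun χ hχ => ?_
    · rw [ev_mul χ (dX_memA hpn hU) hS.mem, mem_clop.1 hχ, mul_one,
        ev_dX hA hS hχ L _ (fun i => ((h i (seedAt Q c u χ i) : ℝ) : ℂ)) hU fun z hz => by
          simp only [cells, ev_cellOp, seedAt, List.getD_eq_getElem L _ hz]]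
      suffices e : ∀ K : List ι, (K.map fun i => ((h i (seedAt Q c u χ i) : ℝ) : ℂ)).prod =
          (((K.map fun i => h i (seedAt Q c u χ i)).prod : ℝ) : ℂ) from e L
      intro K
      induction K with
      | nil => simp
      | cons i K ih => simp [List.map_cons, List.prod_cons, ih]
    · rw [ev_mul χ (dX_memA hpn hU) hS.mem, (ev_eq_zero_iff hS.mem hS.proj).2 hχ, mul_zero]

/-- A centred function is a combination of products of centred one-point functions. -/
theorem exists_expansion [DecidableEq ι] [DecidableEq β] [Nonempty β] {g : (ι → β) → ℝ}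
    (hg : av g = 0) :
    ∀ x, g x = ∑ T ∈ (Finset.univ : Finset ι).powerset.erase ∅, ∑ s : ι → β,
      (g s * ((Fintype.card β : ℝ)⁻¹) ^ (Fintype.card ι - T.card)) *
        ∏ i ∈ T, ((if x i = s i then (1 : ℝ) else 0) - (Fintype.card β : ℝ)⁻¹) := by
  intro x
  set N : ℝ := (Fintype.card β : ℝ)⁻¹
  set e : ι → (ι → β) → ℝ := fun i s => (if x i = s i then (1 : ℝ) else 0) - N
  have h1 : g x = ∑ s : ι → β, g s * ∏ i, (e i s + N) := by
    rw [Finset.sum_eq_single x]
    · simp [e]
    · intro s _ hs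
      obtain ⟨i, hi⟩ := Function.ne_iff.1 hs
      rw [Finset.prod_eq_zero (Finset.mem_univ i) (by simp [e, Ne.symm hi]), mul_zero]
    · simp
  rw [h1]
  simp only [Finset.prod_add, Finset.mul_sum, Finset.prod_const]
  rw [Finset.sum_comm, ← Finset.add_sum_erase _ _ (Finset.empty_mem_powerset Finset.univ)]
  have h0 : ∑ s : ι → β, g s = 0 := by
    have : (Fintype.card (ι → β) : ℝ) ≠ 0 := by exact_mod_cast Fintype.card_ne_zero
    simpa [av, this] using hg
  simp only [Finset.prod_empty, one_mul, Finset.sdiff_empty, ← Finset.sum_mul, h0, zero_mul, zero_add]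
  refine Finset.sum_congr rfl fun T _ => Finset.sum_congr rfl fun s _ => ?_
  rw [Finset.card_sdiff_of_subset (Finset.subset_univ T), Finset.card_univ]
  ring

/-- A monomial times a centred function of the seeds at separated points is a letter. -/
theorem inLet_loc [DecidableEq ι] [Nonempty β] (hφ : IsCState M A φ) {m : H →L[ℂ] H} (hm : MonP M A m)
    (hS : Sep M A f u) {g : (ι → β) → ℝ} (hg : av g = 0) :
    InLet A (MonP M A) fun Q c => m * loc A f u g Q c := by
  classical
  set N : ℝ := (Fintype.card β : ℝ)⁻¹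
  set h : (ι → β) → ι → β → ℝ := fun s i b => (if b = s i then (1 : ℝ) else 0) - N
  have hh : ∀ s i, av (h s i) = 0 := fun s i => by
    have : (Fintype.card β : ℝ) ≠ 0 := by exact_mod_cast Fintype.card_ne_zero
    simp [av, h, N, Finset.sum_sub_distrib, this]
  set idx : Finset (Finset ι × (ι → β)) :=
    ((Finset.univ : Finset ι).powerset.erase ∅) ×ˢ Finset.univ
  set a : Finset ι × (ι → β) → ℝ := fun j => g j.2 * N ^ (Fintype.card ι - j.1.card)
  have hexp : g = fun x => ∑ j ∈ idx, a j * (j.1.toList.map fun i => h j.2 i (x i)).prod := by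
    funext x
    rw [exists_expansion hg x, Finset.sum_product]
    refine Finset.sum_congr rfl fun T _ => Finset.sum_congr rfl fun s _ => ?_
    simp only [a, Finset.prod_map_toList, h]
    rfl
  refine (inLet_sum (inLet_zero hφ.masa) idx (F := fun j Q c => (a j : ℂ) • (m * loc A f u
    (fun x => (j.1.toList.map fun i => h j.2 i (x i)).prod) Q c)) fun j hj => ?_).congr
    (.of_forall fun Q c => ?_)
  · obtain ⟨hT, -⟩ := Finset.mem_product.1 hj
    refine InLet.smul _ (inLet_prod hφ hm hS j.1.toList (Finset.nodup_toList _) ?_ _ (hh j.2))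
    simpa using (Finset.mem_erase.1 hT).1
  · conv_lhs => rw [hexp, loc_sum hφ.masa hS, Finset.mul_sum]
    exact Finset.sum_congr rfl fun j _ => mul_smul_comm _ _ _

/-- A rule on a partition with separated families gives colour data. -/
theorem colourData_of_rule [Nonempty β] (hφ : IsCState M A φ) {K : Type} [Fintype K]
    {f : K → H →L[ℂ] H} (hf : IsPart A 1 f) {ι : K → Type} [∀ k, Fintype (ι k)] [∀ k, DecidableEq (ι k)]
    {u : ∀ k, ι k → H →L[ℂ] H} (hu : ∀ k, Sep M A (f k) (u k)) (G : ∀ k, (ι k → β) → Bool) {t : ℝ}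
    (ht0 : 0 < t) (ht1 : t ≤ 1)
    (hG : ∀ k, av (fun s : ι k → β => if G k s then (1 : ℝ) else 0) = t) :
    ColourData M A (MonP M A) (InLet A (MonP M A)) t
      (fun Q c => ∑ k, loc A (f k) (u k) (fun s => if G k s then (1 : ℝ) else 0) Q c) := by
  classical
  have hA := hφ.masa
  set g : ∀ k, (ι k → β) → ℝ := fun k s => if G k s then (1 : ℝ) else 0
  have hl : ∀ Q c k, loc A (f k) (u k) (g k) Q c ∈ A := fun Q c k =>
    loc_mem hA (hu k).mem (hu k).proj (hu k).pn _ Q c
  have hg0 : ∀ k, av (fun s => g k s - t) = 0 := fun k => by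
    have : (Fintype.card (ι k → β) : ℝ) ≠ 0 := by exact_mod_cast Fintype.card_ne_zero
    have h' := hG k
    simp only [av] at h' ⊢
    rw [Finset.sum_sub_distrib, sub_div, h', Finset.sum_const, Finset.card_univ, nsmul_eq_mul,
      mul_div_cancel_left₀ _ this, sub_self]
  refine colourData_of hφ (fun Q c => ?_) (fun Q c => sum_mem fun k _ => hl Q c k) ht0 ht1 ?_
  · have hev : ∀ χ : Spec A, ev χ (∑ k, loc A (f k) (u k) (g k) Q c) = 0 ∨
        ev χ (∑ k, loc A (f k) (u k) (g k) Q c) = 1 := by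
      intro χ
      rw [ev_sum χ _ (hl Q c)]
      by_cases hex : ∃ k, χ ∈ clop A (f k)
      · obtain ⟨k, hk⟩ := hex
        rw [Finset.sum_eq_single k (fun j _ hj => ?_) (by simp), ev_loc hA (hu k).mem (hu k).proj
          (hu k).pn, if_pos hk]
        · simp only [g]; split_ifs <;> simp
        · rw [ev_loc hA (hu j).mem (hu j).proj (hu j).pn, if_neg]
          intro hj'
          have h0 : χ ∈ clop A (f j * f k) := by
            rw [clop_mul (hu j).mem (hu j).proj (hu k).mem]; exact ⟨hj', hk⟩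
          rw [hf.orth j k hj, clop_zero] at h0
          exact h0
      · exact Or.inl (Finset.sum_eq_zero fun k _ => by
          rw [ev_loc hA (hu k).mem (hu k).proj (hu k).pn, if_neg fun h => hex ⟨k, h⟩])
    have hP := sum_mem (t := Finset.univ) fun k (_ : k ∈ Finset.univ) => hl Q c k
    refine ⟨eq_of_ev hA.comm (mul_mem hP hP) hP fun χ => ?_,
      eq_of_ev hA.comm (star_mem hP) hP fun χ => ?_⟩
    · rw [ev_mul χ hP hP]
      rcases hev χ with h | h <;> rw [h] <;> simp
    · rw [ev_star χ hP]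
      rcases hev χ with h | h <;> rw [h] <;> simp
  · refine (inLet_sum (inLet_zero hA) Finset.univ fun k _ => inLet_loc hφ
      (monP_memA hA (one_mem A)) (hu k) (hg0 k)).congr (.of_forall fun Q c => ?_)
    simp only [one_mul, loc_sub_const hA (hu _), Finset.sum_sub_distrib, ← Finset.smul_sum,
      hf.sum_eq]
    rfl

end Vale.Agent.P078.General.Single.Colours
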