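import Vale.Agent.P078.Colours.Frame
import Vale.Agent.P078.Final.Iface
import Vale.Agent.P078.Local.Def.Rule

/-!
# From one local rule and the colours of one operand to `StmtColours`
-/

namespace Vale.Agent.P078.General.Single.Colours

open scoped Topology ComplexOrder
open Filter Vale.Agent.P078.General.Orbit

universe u

/-- A finite-range rule with between `ε⁻²` and `C ε⁻²` colours paving at every site. -/
def GoalR : Prop :=
  ∃ C : ℝ, 0 < C ∧ ∀ ε : ℝ, 0 < ε → ε ≤ 1 →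
    ∃ r : ℕ, 0 < r ∧ 1 / ε ^ 2 ≤ r ∧ (r : ℝ) ≤ C / ε ^ 2 ∧
    ∀ (D m : ℕ) (δ : ℝ), 0 < δ → ∃ p : Local.Par, p.D = D ∧ p.r = r ∧ p.Ok ∧
      ∀ (κ : Type) [Fintype κ] [DecidableEq κ] (N : Local.Net κ p.D) (o : κ),
        Local.prob (fun t : Local.Seeds κ p × Local.Coins κ p =>
          ¬ ∀ (c : Fin p.r) (U : Finset κ), U ⊆ N.ball o m →
            (∀ u ∈ U, Local.IsColour p N t.1 t.2 u c) → Local.OpLe U N.x ε) ≤ δ

/-- The colours of one operand. -/
def CoreStmt : Prop :=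
  ∀ (H : Type u) [NormedAddCommGroup H] [InnerProductSpace ℂ H] [CompleteSpace H]
    (M A : VonNeumannAlgebra H) (φ : (H →L[ℂ] H) →ₗ[ℂ] ℂ), IsCState M A φ →
    ∀ {N : ℕ} (G : Gens M A N) {x : H →L[ℂ] H}, Operand φ G x → ∀ (p : Local.Par), p.Ok → p.D = N →
    ∀ {n : ℕ} {ε d : ℝ}, 0 < n → 0 < ε → 0 ≤ d →
      (∀ (κ : Type) [Fintype κ] [DecidableEq κ] (Nt : Local.Net κ p.D) (o : κ),
        Local.prob (fun t : Local.Seeds κ p × Local.Coins κ p =>
          ¬ ∀ (c : Fin p.r) (U : Finset κ), U ⊆ Nt.ball o n →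
            (∀ u ∈ U, Local.IsColour p Nt t.1 t.2 u c) → Local.OpLe U Nt.x ε) ≤ d) →
      ∃ (β : Type) (_ : Fintype β) (_ : Nonempty β) (Let : SFam A β → Prop)
        (P : Fin p.r → SFam A β),
        (∀ Q c, IsPart A 1 fun i => P i Q c) ∧
        (∀ i, ColourData M A (Final.MonP M A) Let ((p.r : ℝ)⁻¹) (P i)) ∧
        ∀ᶠ Q in refF A, (av fun c : Fin Q.n → β => sq φ (pinch (fun i => P i Q c) x ^ n)) ≤
          ((ε ^ 2) ^ n + d) * (φ 1).re

variable {H : Type u} [NormedAddCommGroup H] [InnerProductSpace ℂ H] [CompleteSpace H]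
variable {M A : VonNeumannAlgebra H} {φ : (H →L[ℂ] H) →ₗ[ℂ] ℂ}

theorem pow_pinch_smul {r : ℕ} (p : Fin r → H →L[ℂ] H) (z : ℂ) (x : H →L[ℂ] H) (n : ℕ) :
    pinch p (z • x) ^ n = z ^ n • pinch p x ^ n := by
  rw [show pinch p (z • x) = z • pinch p x by simp [pinch, Finset.smul_sum], smul_pow]

theorem hasColours_of (hφ : IsCState M A φ) (hcore : CoreStmt.{u}) {r : ℕ} {ε : ℝ} (hε : 0 < ε)
    (hgoal : ∀ (D m : ℕ) (δ : ℝ), 0 < δ → ∃ p : Local.Par, p.D = D ∧ p.r = r ∧ p.Ok ∧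
      ∀ (κ : Type) [Fintype κ] [DecidableEq κ] (N : Local.Net κ p.D) (o : κ),
        Local.prob (fun t : Local.Seeds κ p × Local.Coins κ p =>
          ¬ ∀ (c : Fin p.r) (U : Finset κ), U ⊆ N.ball o m →
            (∀ u ∈ U, Local.IsColour p N t.1 t.2 u c) → Local.OpLe U N.x (ε / 4)) ≤ δ) :
    Final.HasColours M A φ r ε := by
  intro s hs hss hsE hsn n δ hn hδ
  obtain ⟨k, a, v, ha, hv, hsum⟩ := hs.exists_fin
  let G : Gens M A (k + k) :=
    { v := Fin.append v fun i => star (v i)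
      inv := Fin.append (fun i => Fin.natAdd k i) fun i => Fin.castAdd k i
      pn := Fin.addCases (fun i => by rw [Fin.append_left]; exact hv i)
        fun i => by rw [Fin.append_right]; exact (hv i).star
      star_v := Fin.addCases (fun i => by rw [Fin.append_left, Fin.append_right, Fin.append_left])
        fun i => by rw [Fin.append_right, Fin.append_left, Fin.append_right, star_star] }
  set z : ℂ := ((1 / 4 : ℝ) : ℂ) with hz
  have hzn : ‖z‖ = 1 / 4 := by rw [hz, Complex.norm_real, Real.norm_of_nonneg (by norm_num)]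
  have hx : Operand φ G (z • s) := by
    refine ⟨smul_mem' M (hs.mem hφ.masa) z, ?_, ?_, ?_,
      ⟨Fin.append (fun i => z • a i) 0, ?_, ?_⟩⟩
    · rw [IsSelfAdjoint, star_smul, hss.star_eq, hz, Complex.star_def, Complex.conj_ofReal]
    · rw [norm_smul, hzn]; linarith
    · rw [hφ.expE_smul (hs.mem hφ.masa), hsE, smul_zero]
    · refine Fin.addCases (fun i => ?_) fun i => ?_
      · rw [Fin.append_left]; exact smul_mem' A (ha i) z
      · rw [Fin.append_right]; exact zero_mem A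
    · rw [Fin.sum_univ_add]
      simp only [G, Fin.append_left, Fin.append_right, Pi.zero_apply, zero_mul, Finset.sum_const_zero, add_zero, hsum, Finset.smul_sum, smul_mul_assoc]
  set d := δ / (16 ^ n * |(φ 1).re| + 1) with hd
  obtain ⟨p, hpD, hpr, hpok, hp⟩ := hgoal (k + k) n d (by positivity)
  obtain ⟨β, iβ, jβ, Let, P, hP, hC, hev⟩ := hcore H M A φ hφ G hx p hpok hpD hn
    (show 0 < ε / 4 by positivity) (show 0 ≤ d by positivity) hp
  subst hpr
  refine ⟨β, iβ, jβ, Let, P, hP, hC, hev.mono fun Q hQ => ?_⟩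
  have e : ∀ c : Fin Q.n → β, sq φ (pinch (fun i => P i Q c) s ^ n) =
      sq φ (pinch (fun i => P i Q c) (z • s) ^ n) * 16 ^ n := by
    intro c
    rw [pow_pinch_smul, IsCState.sq_smul, norm_pow, hzn, ← pow_mul, mul_comm n 2, pow_mul,
      mul_right_comm, ← mul_pow, show (1 / 4 : ℝ) ^ 2 * 16 = 1 by norm_num, one_pow, one_mul]
  simp only [e, av_mul_const]
  refine (mul_le_mul_of_nonneg_right hQ (by positivity)).trans ?_
  have e2 : ((ε / 4) ^ 2) ^ n * 16 ^ n = (ε ^ 2) ^ n := by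
    rw [← mul_pow]; congr 1; ring
  have e3 : d * ((φ 1).re * 16 ^ n) ≤ δ := by
    rw [hd, div_mul_eq_mul_div, div_le_iff₀ (by positivity)]
    refine mul_le_mul_of_nonneg_left ?_ hδ.le
    nlinarith [le_abs_self (φ 1).re, show (0 : ℝ) < 16 ^ n by positivity]
  rw [← e2]
  linarith

/-- Piece 3 from the local goal and the colours of one operand. -/
theorem stmtColours_of (hgoal : GoalR) (hcore : CoreStmt.{u}) : Final.StmtColours.{u} := by
  obtain ⟨C, hC, hg⟩ := hgoal
  refine ⟨16 * C, by positivity, fun ε hε hε1 => ?_⟩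
  obtain ⟨r, hr0, hrl, hru, hr⟩ := hg (ε / 4) (by positivity) (by linarith)
  refine ⟨r, hr0, le_trans ?_ hrl, hru.trans_eq (by field_simp; ring),
    fun H _ _ _ M A φ hφ => hasColours_of hφ hcore hε hr⟩
  exact one_div_le_one_div_of_le (by positivity) (by nlinarith)

end Vale.Agent.P078.General.Single.Colours
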