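import Vale.Agent.P078.Colours.Pointwise
import Vale.Agent.P078.Colours.Main
import Vale.Agent.P078.Colours.Letters

/-!
# The colours of one operand
-/

namespace Vale.Agent.P078.General.Single.Colours

open scoped InnerProductSpace Topology ComplexOrder
open Filter WeakDual Vale.Agent.P078.General.Orbit

universe u

variable {H : Type u} [NormedAddCommGroup H] [InnerProductSpace ℂ H] [CompleteSpace H]
variable {M A : VonNeumannAlgebra H} {φ : (H →L[ℂ] H) →ₗ[ℂ] ℂ}

theorem inLet_finset_sum {β : Type} [Fintype β] {Mon : (H →L[ℂ] H) → Prop} {κ : Type*}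
    {s : Finset κ} (hs : s.Nonempty) {F : κ → SFam A β} (h : ∀ k ∈ s, InLet A Mon (F k)) :
    InLet A Mon fun Q c => ∑ k ∈ s, F k Q c := by
  classical
  induction hs using Finset.Nonempty.cons_induction with
  | singleton k => simpa using h k (by simp)
  | cons k s hk hs ih =>
    simp only [Finset.sum_cons]
    exact (h k (Finset.mem_cons_self k s)).add (ih fun l hl => h l (Finset.mem_cons_of_mem hl))

theorem exists_atom {κ : Type*} [Fintype κ] {f : κ → H →L[ℂ] H} (hf : IsPart A 1 f) (χ : Spec A) :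
    ∃ k, χ ∈ clop A (f k) := by
  by_contra hne
  have h1 : ev χ (∑ k, f k) = 1 := by rw [hf.sum_eq, ev_one]
  rw [ev_sum χ _ hf.mem, Finset.sum_eq_zero fun k _ => (ev_eq_zero_iff (hf.mem k) (hf.proj k)).2
    fun h => hne ⟨k, h⟩] at h1
  exact zero_ne_one h1

theorem atom_unique {κ : Type*} [Fintype κ] {f : κ → H →L[ℂ] H} (hf : IsPart A 1 f) {χ : Spec A}
    {k l : κ} (hk : χ ∈ clop A (f k)) (hl : χ ∈ clop A (f l)) : k = l := by
  by_contra hne
  have h1 : χ ∈ clop A (f k * f l) := by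
    rw [clop_mul (hf.mem k) (hf.proj k) (hf.mem l)]; exact ⟨hk, hl⟩
  rw [hf.orth k l hne, clop_zero] at h1
  exact h1

section Rule

variable {p : Local.Par} {G : Gens M A p.D} {x : H →L[ℂ] H} {L : ℕ}

noncomputable instance : Fintype (Label p L) := by classical exact inferInstance

/-- The atoms of the labels. -/
structure Atoms (hφ : IsCState M A φ) (hx : Operand φ G x) (hp : p.Ok)
    (f : Label p L → H →L[ℂ] H) : Prop where
  part : IsPart A 1 f
  res : ∀ᶠ χ in residual (Spec A), ∀ k, G.label hφ hx hp L χ = k ↔ χ ∈ clop A (f k)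
  pat : ∀ k, ∀ χ ∈ clop A (f k), G.pat L χ = k.1

theorem nonempty_colour (hp : p.Ok) : Nonempty (Fin p.r) :=
  ⟨⟨0, by have := hp.r_ge; omega⟩⟩

theorem nonempty_site (hp : p.Ok) : Nonempty (Local.Colour.Site p) :=
  ⟨(fun _ => (⟨0, hp.P_pos⟩, Equiv.refl _), fun _ => true)⟩

theorem exists_label_atoms (hφ : IsCState M A φ) (hx : Operand φ G x) (hp : p.Ok) (L : ℕ) :
    ∃ f : Label p L → H →L[ℂ] H, Atoms hφ hx hp f := by
  classical
  have hA := hφ.masa
  have := nonempty_colour hp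
  have : Nonempty (Label p L) := ⟨⟨∅, fun _ => Classical.arbitrary _⟩⟩
  obtain ⟨f, hf, hfR⟩ := hφ.exists_part_residual (G.label hφ hx hp L) fun k => G.baire_label hφ hx hp k
  refine ⟨f, hf, hfR, fun k χ hχ => ?_⟩
  by_contra hne
  have ho : IsOpen (clop A (f k) ∩ {ψ | patt (G.wops L) ψ = k.1}ᶜ) :=
    (isClopen_clop (hf.mem k) (hf.proj k)).2.inter
      (isClopen_patt hφ (fun w => G.pn_wordOp hA _) k.1).1.isOpen_compl
  obtain ⟨ψ, hψ, hψR⟩ := (dense_of_mem_residual hfR).inter_open_nonempty _ ho ⟨χ, hχ, hne⟩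
  exact hψ.2 ((G.label_iff hφ hx hp k ψ).1 ((hψR k).2 hψ.1)).choose

theorem Atoms.sep {hφ : IsCState M A φ} {hx : Operand φ G x} {hp : p.Ok}
    {f : Label p L → H →L[ℂ] H} (hf : Atoms hφ hx hp f) (k : Label p L) :
    Sep M A (f k) (fun a : Vert L k.1 => G.uop L a) :=
  ⟨hf.part.mem k, hf.part.proj k, G.pn_uop hφ.masa, fun χ hχ a => G.dom_uop (hf.pat k χ hχ) a,
    fun χ hχ _ _ e => G.vpt_inj (hf.pat k χ hχ) e⟩

/-- A function of the seeds on every atom. -/
noncomputable def comb (G : Gens M A p.D) (f : Label p L → H →L[ℂ] H)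
    (g : ∀ k : Label p L, (Vert L k.1 → Local.Colour.Site p) → ℝ) : SFam A (Local.Colour.Site p) :=
  fun Q c => ∑ k, loc A (f k) (fun a : Vert L k.1 => G.uop L a) (g k) Q c

/-- The indicator of a colour. -/
noncomputable def ind (i : Fin p.r) (k : Label p L) (s : Vert L k.1 → Local.Colour.Site p) : ℝ :=
  if k.2 s = i then 1 else 0

variable {hφ : IsCState M A φ} {hx : Operand φ G x} {hp : p.Ok} {f : Label p L → H →L[ℂ] H}

theorem Atoms.comb_mem (hf : Atoms hφ hx hp f)
    (g : ∀ k : Label p L, (Vert L k.1 → Local.Colour.Site p) → ℝ) (Q : Part A (1 : H →L[ℂ] H))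
    (c : Fin Q.n → Local.Colour.Site p) : comb G f g Q c ∈ A :=
  sum_mem fun k _ => loc_mem hφ.masa (hf.part.mem k) (hf.part.proj k) (hf.sep k).pn (g k) Q c

theorem Atoms.ev_comb (hf : Atoms hφ hx hp f) {χ : Spec A} {k : Label p L}
    (hk : χ ∈ clop A (f k)) (g : ∀ k : Label p L, (Vert L k.1 → Local.Colour.Site p) → ℝ)
    (Q : Part A (1 : H →L[ℂ] H)) (c : Fin Q.n → Local.Colour.Site p) :
    ev χ (comb G f g Q c) = ((g k (G.field Q c χ k.1) : ℝ) : ℂ) := by
  have hA := hφ.masa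
  rw [comb, ev_sum χ _ fun l => loc_mem hA (hf.part.mem l) (hf.part.proj l) (hf.sep l).pn (g l) Q c,
    Finset.sum_eq_single k (fun l _ hl => ?_) (fun h => absurd (Finset.mem_univ _) h)]
  · rw [ev_loc hA (hf.part.mem k) (hf.part.proj k) (hf.sep k).pn, if_pos hk]
    rfl
  · rw [ev_loc hA (hf.part.mem l) (hf.part.proj l) (hf.sep l).pn,
      if_neg fun h => hl (atom_unique hf.part h hk)]

theorem Atoms.isPart (hf : Atoms hφ hx hp f) (Q : Part A (1 : H →L[ℂ] H))
    (c : Fin Q.n → Local.Colour.Site p) : IsPart A 1 fun i => comb G f (ind i) Q c := by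
  have hA := hφ.masa
  have hm : ∀ i, comb G f (ind i) Q c ∈ A := fun i => hf.comb_mem _ Q c
  refine ⟨hm, fun i => ⟨eq_of_ev hA.comm (mul_mem (hm i) (hm i)) (hm i) fun χ => ?_,
    eq_of_ev hA.comm (star_mem (hm i)) (hm i) fun χ => ?_⟩,
    fun i j hij => eq_of_ev hA.comm (mul_mem (hm i) (hm j)) (zero_mem A) fun χ => ?_,
    eq_of_ev hA.comm (sum_mem fun i _ => hm i) (one_mem A) fun χ => ?_⟩
  all_goals obtain ⟨k, hk⟩ := exists_atom hf.part χ
  · rw [ev_mul χ (hm i) (hm i), hf.ev_comb hk, ind]; split_ifs <;> simp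
  · rw [ev_star χ (hm i), hf.ev_comb hk, ind]; split_ifs <;> simp
  · rw [ev_mul χ (hm i) (hm j), hf.ev_comb hk, hf.ev_comb hk, ev_zero, ind, ind]
    by_cases h : k.2 (G.field Q c χ k.1) = i
    · rw [if_pos h, if_neg (fun h' => hij (h.symm.trans h'))]; simp
    · rw [if_neg h]; simp
  · rw [ev_sum χ _ hm, ev_one]
    simp only [hf.ev_comb hk, ind]
    rw [Finset.sum_eq_single (k.2 (G.field Q c χ k.1)) (fun i _ hi => by rw [if_neg hi.symm]; simp)
      (by simp), if_pos rfl, Complex.ofReal_one]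

theorem Atoms.mean (hf : Atoms hφ hx hp f) (k : Label p L) (i : Fin p.r)
    (hk : (clop A (f k)).Nonempty) : av (ind i k) = (p.r : ℝ)⁻¹ := by
  classical
  have hA := hφ.masa
  obtain ⟨ψ, hψ, hψR⟩ := (dense_of_mem_residual hf.res).inter_open_nonempty _
    (isClopen_clop (hf.part.mem k) (hf.part.proj k)).2 hk
  obtain ⟨hpψ, hlab⟩ := (G.label_iff hφ hx hp k ψ).1 ((hψR k).2 hψ)
  obtain ⟨o, ho⟩ := G.exists_root hA hpψ
  have hroot := (G.isRoot_iff hA hpψ).2 ho
  rw [← one_div, ← Local.Colour.prob_colourOf hp (G.net hφ hx ψ hpψ) o i]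
  simp only [Local.prob, Local.avg, av]
  refine congrArg (· / _) (Finset.sum_congr rfl fun F _ => ?_)
  simp only [ind, hlab o hroot F]

theorem Atoms.colourData (hf : Atoms hφ hx hp f) (i : Fin p.r)
    (hlet : ∀ (k : Label p L) (g : (Vert L k.1 → Local.Colour.Site p) → ℝ), av g = 0 →
      InLet A (Final.MonP M A) (loc A (f k) (fun a : Vert L k.1 => G.uop L a) g)) :
    ColourData M A (Final.MonP M A) (InLet A (Final.MonP M A)) ((p.r : ℝ)⁻¹)
      (comb G f (ind i)) := by
  classical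
  have := nonempty_colour hp
  have := nonempty_site hp
  have : Nonempty (Label p L) := ⟨⟨∅, fun _ => Classical.arbitrary _⟩⟩
  have hr1 : (1 : ℝ) ≤ p.r := by
    have := hp.r_ge
    exact_mod_cast (by omega : 1 ≤ p.r)
  refine colourData_of hφ (fun Q c => (hf.isPart Q c).proj i) (fun Q c => hf.comb_mem _ Q c)
    (inv_pos.2 (by linarith)) (inv_le_one_of_one_le₀ hr1) ?_
  let g : ∀ k : Label p L, (Vert L k.1 → Local.Colour.Site p) → ℝ := fun k s =>
    if (clop A (f k)).Nonempty then ind i k s - (p.r : ℝ)⁻¹ else 0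
  have hg : ∀ k, av (g k) = 0 := by
    intro k
    by_cases h : (clop A (f k)).Nonempty
    · have hm := hf.mean k i h
      have hc : (Fintype.card (Vert L k.1 → Local.Colour.Site p) : ℝ) ≠ 0 := by
        exact_mod_cast Fintype.card_ne_zero
      simp only [av, g, if_pos h, Finset.sum_sub_distrib, Finset.sum_const, Finset.card_univ,
        nsmul_eq_mul, sub_div] at hm ⊢
      rw [hm, mul_div_assoc, mul_comm, div_mul_cancel₀ _ hc, sub_self]
    · simp [av, g, if_neg h]
  refine (inLet_finset_sum (F := fun k => loc A (f k) (fun a : Vert L k.1 => G.uop L a) (g k))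
    Finset.univ_nonempty fun k _ => hlet k (g k) (hg k)).congr (.of_forall fun Q c => ?_)
  refine eq_of_ev hφ.masa.comm (sub_mem (hf.comb_mem _ Q c) (General.smul_one_mem A _))
    (show comb G f g Q c ∈ A from hf.comb_mem g Q c) fun χ => ?_
  obtain ⟨k, hk⟩ := exists_atom hf.part χ
  rw [ev_sub χ (hf.comb_mem _ Q c) (General.smul_one_mem A _), ev_smul χ (one_mem A), ev_one,
    hf.ev_comb hk]
  show _ = ev χ (comb G f g Q c)
  rw [hf.ev_comb hk g Q c]
  simp only [g, if_pos (show (clop A (f k)).Nonempty from ⟨χ, hk⟩)]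
  push_cast
  ring

theorem Atoms.eventually_moment (hf : Atoms hφ hx hp f) {n : ℕ} (hnL : n + p.depend < L) {ε d : ℝ}
    (hε : 0 < ε)
    (hgoal : ∀ (κ : Type) [Fintype κ] [DecidableEq κ] (Nt : Local.Net κ p.D) (o : κ),
      Local.prob (fun t : Local.Seeds κ p × Local.Coins κ p =>
        ¬ ∀ (c : Fin p.r) (U : Finset κ), U ⊆ Nt.ball o n →
          (∀ u ∈ U, Local.IsColour p Nt t.1 t.2 u c) → Local.OpLe U Nt.x ε) ≤ d) :
    ∀ᶠ Q in refF A, (av fun c : Fin Q.n → Local.Colour.Site p =>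
      sq φ (pinch (fun i => comb G f (ind i) Q c) x ^ n)) ≤ ((ε ^ 2) ^ n + d) * (φ 1).re := by
  classical
  have hA := hφ.masa
  have := nonempty_site hp
  set R : Spec A → Prop := fun χ => ∀ k : Label p L, G.label hφ hx hp L χ = k ↔ χ ∈ clop A (f k)
  have hgood : ∀ᶠ χ in residual (Spec A), R χ ∧ ∀ w : Word p.D L, R (pt (G.wops L w) χ) :=
    hf.res.and (eventually_countable_forall.2 fun w => eventually_pt hA (G.pn_wordOp hA _) hf.res)
  have hQ : ∀ᶠ Q in refF A, ∀ k : Label p L, ∀ χ ∈ clop A (f k), ∀ a b,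
      cellAt Q (pt (G.uop L (a : Vert L k.1)) χ) = cellAt Q (pt (G.uop L (b : Vert L k.1)) χ) →
        a = b :=
    eventually_all.2 fun k => (hf.sep k).eventually_cells hφ
  filter_upwards [hQ] with Q hQ
  refine av_sq_le hφ (fun c => pow_mem ((hf.isPart Q c).pinch_mem hA.le hx.mem) n) ?_
  filter_upwards [hgood] with χ ⟨hχ, hw⟩
  obtain ⟨k, hk⟩ := exists_atom hf.part χ
  obtain ⟨π, hπ⟩ : ∃ π, G.pat L χ = π := ⟨_, rfl⟩
  obtain ⟨o, ho⟩ := G.exists_root hA hπ
  have hkey : ∀ c : Fin Q.n → Local.Colour.Site p,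
      (fib φ χ (pinch (fun i => comb G f (ind i) Q c) x ^ n)
        (pinch (fun i => comb G f (ind i) Q c) x ^ n)).re =
      ∑ v, Complex.normSq (Local.Colour.pvec (G.net hφ hx χ hπ)
        (Local.Colour.colourOf hp (G.net hφ hx χ hπ) (G.field Q c χ π)) o n v) := by
    intro c
    rw [G.fib_pinch_pow hφ hx hπ ho (hf.isPart Q c)
      (Local.Colour.colourOf hp (G.net hφ hx χ hπ) (G.field Q c χ π)) (by omega) ?_, Complex.ofReal_re]
    intro b hb i
    obtain ⟨l, hl⟩ := exists_atom hf.part (G.vpt χ b)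
    obtain ⟨hpψ, hlab⟩ :=
      (G.label_iff hφ hx hp l (G.vpt χ b)).1 (((hw b.1 : R (G.vpt χ b)) l).2 hl)
    obtain ⟨o', ho'⟩ := G.exists_root hA hpψ
    rw [hf.ev_comb hl, ind, ← hlab o' ((G.isRoot_iff hA hpψ).2 ho'),
      G.colour_consistent hφ hx hp hπ hpψ ho' hb (by omega) Q c]
    split_ifs <;> simp
  have hinj : Function.Injective fun a : Vert L π => cellAt Q (G.vpt χ a) := by
    subst hπ
    intro a b e
    have hπk : G.pat L χ = k.1 := hf.pat k χ hk
    obtain ⟨a', ha'⟩ := G.exists_vert hA hπk (G.reach_vpt hA rfl a)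
    obtain ⟨b', hb'⟩ := G.exists_vert hA hπk (G.reach_vpt hA rfl b)
    have e' : a' = b' := hQ k χ hk a' b' (by
      show cellAt Q (G.vpt χ a') = cellAt Q (G.vpt χ b')
      rw [ha', hb']; exact e)
    exact G.vpt_inj rfl (by rw [← ha', ← hb', e'])
  simp only [hkey]
  refine (av_comp_injective hinj (fun F : Vert L π → Local.Colour.Site p => ∑ v, Complex.normSq
    (Local.Colour.pvec (G.net hφ hx χ hπ) (Local.Colour.colourOf hp (G.net hφ hx χ hπ) F) o n v))).le.trans ?_
  exact Local.Colour.avg_pvec_le hp (G.net hφ hx χ hπ) le_rfl hε (hgoal _ (G.net hφ hx χ hπ) o)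

end Rule

/-- The colours of one operand, from the letters. -/
theorem coreStmt_of
    (hlet : ∀ (H : Type u) [NormedAddCommGroup H] [InnerProductSpace ℂ H] [CompleteSpace H]
      (M A : VonNeumannAlgebra H) (φ : (H →L[ℂ] H) →ₗ[ℂ] ℂ) (β : Type) [Fintype β] [Nonempty β]
      (ι : Type) [Fintype ι] [DecidableEq ι] (f : H →L[ℂ] H) (u : ι → H →L[ℂ] H)
      (g : (ι → β) → ℝ), IsCState M A φ → Sep M A f u → av g = 0 →
        InLet A (Final.MonP M A) (loc A f u g : SFam A β)) : CoreStmt.{u} := by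
  intro H _ _ _ M A φ hφ N G x hx p hp hD n ε d _ hε _ hgoal
  subst hD
  obtain ⟨f, hf⟩ := exists_label_atoms hφ hx hp (n + p.depend + 1)
  have := nonempty_site hp
  exact ⟨Local.Colour.Site p, inferInstance, this, _, fun i => comb G f (ind i),
    fun Q c => hf.isPart Q c,
    fun i => hf.colourData i fun k g hg => hlet H M A φ _ _ (f k) _ g hφ (hf.sep k) hg,
    hf.eventually_moment (by omega) hε hgoal⟩

/-- The colours of one operand. -/
theorem coreStmt : CoreStmt.{u} :=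
  coreStmt_of fun _ _ _ _ _ _ _ _ _ _ _ _ _ _ _ _ hφ hS hg => by
    simpa using inLet_loc hφ (monP_memA hφ.masa (one_mem _)) hS hg

/-- Piece 3 from the local goal alone. -/
theorem stmtColours_of_goal (hgoal : GoalR) : Final.StmtColours.{u} :=
  stmtColours_of hgoal coreStmt

end Vale.Agent.P078.General.Single.Colours
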