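import Vale.Agent.P078.Colours.Patterns
import Vale.Agent.P078.Local.Graph.Basic

/-!
# Orbit balls of finitely many normalisers as nets, with a vertex set that only depends on the
coincidence pattern
-/

namespace Vale.Agent.P078.General.Single.Colours

open scoped InnerProductSpace Topology ComplexOrder
open Filter WeakDual Vale.Agent.P078.General.Orbit

universe u

variable {H : Type u} [NormedAddCommGroup H] [InnerProductSpace ℂ H] [CompleteSpace H]
variable {M A : VonNeumannAlgebra H} {φ : (H →L[ℂ] H) →ₗ[ℂ] ℂ}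

/-- Finitely many normalisers, closed under adjoints. -/
structure Gens (M A : VonNeumannAlgebra H) (N : ℕ) where
  /-- the normalisers -/
  v : Fin N → H →L[ℂ] H
  /-- the index of the adjoint -/
  inv : Fin N → Fin N
  pn : ∀ i, IsPN M A (v i)
  star_v : ∀ i, v (inv i) = star (v i)

variable {N : ℕ} (G : Gens M A N)

/-- The product of a word. -/
noncomputable def Gens.wordOp : List (Fin N) → H →L[ℂ] H
  | [] => 1
  | i :: l => G.v i * wordOp l

theorem Gens.pn_wordOp (hA : IsMasa M A) : ∀ l, IsPN M A (G.wordOp l)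
  | [] => IsPN.one hA
  | i :: l => (G.pn i).mul hA (pn_wordOp hA l)

/-- One step along a generator. -/
def Gens.Step (χ ψ : Spec A) : Prop := ∃ i, χ ∈ dom A (G.v i) ∧ pt (G.v i) χ = ψ

theorem Gens.step_symm (hA : IsMasa M A) {χ ψ : Spec A} (h : G.Step χ ψ) : G.Step ψ χ := by
  obtain ⟨i, hi, rfl⟩ := h
  exact ⟨G.inv i, by rw [G.star_v]; exact pt_mem_tgt hA (G.pn i) hi,
    by rw [G.star_v]; exact pt_star hA (G.pn i) hi⟩

/-- Points reached in at most `k` steps. -/
def Gens.Reach : ℕ → Spec A → Spec A → Prop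
  | 0, χ, z => z = χ
  | k + 1, χ, z => Reach k χ z ∨ ∃ y, Reach k χ y ∧ G.Step y z

theorem Gens.reach_mono {j k : ℕ} (h : j ≤ k) {χ z : Spec A} (hz : G.Reach j χ z) :
    G.Reach k χ z := by
  induction h with
  | refl => exact hz
  | step _ ih => exact Or.inl ih

theorem Gens.reach_trans {j k : ℕ} {χ y z : Spec A} (h : G.Reach j χ y) (h' : G.Reach k y z) :
    G.Reach (j + k) χ z := by
  induction k generalizing z with
  | zero => rw [show z = y from h']; exact h
  | succ k ih =>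
    rcases h' with h' | ⟨w, h', hs⟩
    · exact Or.inl (ih h')
    · exact Or.inr ⟨w, ih h', hs⟩

theorem Gens.exists_word_of_reach (hA : IsMasa M A) {k : ℕ} {χ z : Spec A} (h : G.Reach k χ z) :
    ∃ l : List (Fin N), l.length ≤ k ∧ χ ∈ dom A (G.wordOp l) ∧ pt (G.wordOp l) χ = z := by
  induction k generalizing z with
  | zero =>
    exact ⟨[], le_rfl, by simp [Gens.wordOp, dom], by rw [show z = χ from h]; exact pt_one hA χ⟩
  | succ k ih =>
    rcases h with h | ⟨y, h, i, hi, hz⟩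
    · obtain ⟨l, h1, h2⟩ := ih h
      exact ⟨l, h1.trans (Nat.le_succ k), h2⟩
    · obtain ⟨l, h1, h2, rfl⟩ := ih h
      have hd : χ ∈ dom A (G.v i * G.wordOp l) :=
        (dom_mul hA (G.pn i) (G.pn_wordOp hA l)).2 ⟨h2, hi⟩
      exact ⟨i :: l, by simpa using h1, hd,
        (pt_mul hA (G.pn i) (G.pn_wordOp hA l) hd).trans hz⟩

theorem Gens.reach_word (hA : IsMasa M A) (l : List (Fin N)) {χ : Spec A}
    (h : χ ∈ dom A (G.wordOp l)) : G.Reach l.length χ (pt (G.wordOp l) χ) := by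
  induction l with
  | nil => exact pt_one hA χ
  | cons i l ih =>
    have hl := G.pn_wordOp hA l
    have h' : χ ∈ dom A (G.v i * G.wordOp l) := h
    obtain ⟨h1, h2⟩ := (dom_mul hA (G.pn i) hl).1 h'
    exact Or.inr ⟨_, ih h1, i, h2, (pt_mul hA (G.pn i) hl h').symm⟩

/-- Words of length at most `L + 1`. -/
abbrev Word (N L : ℕ) : Type := Σ k : Fin (L + 2), Fin k → Fin N

/-- The letters of a word. -/
def wl {L : ℕ} (w : Word N L) : List (Fin N) := List.ofFn w.2

theorem length_wl {L : ℕ} (w : Word N L) : (wl w).length ≤ L + 1 := by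
  rw [wl, List.length_ofFn]
  have := w.1.isLt
  omega

theorem exists_wl {L : ℕ} {l : List (Fin N)} (h : l.length ≤ L + 1) : ∃ w : Word N L, wl w = l :=
  ⟨⟨⟨l.length, by omega⟩, l.get⟩, List.ofFn_get l⟩

variable (L : ℕ)

/-- The operators of the words. -/
noncomputable def Gens.wops (w : Word N L) : H →L[ℂ] H := G.wordOp (wl w)

/-- The pattern at `χ`. -/
noncomputable def Gens.pat (χ : Spec A) : Finset (Word N L × Word N L) := patt (G.wops L) χ

open Classical in
/-- The chosen words for the vertices at a pattern. -/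
noncomputable def reps (π : Finset (Word N L × Word N L)) : Finset (Word N L) :=
  Finset.univ.filter fun i => (wl i).length ≤ L ∧ (i, i) ∈ π ∧
    ∀ j, (wl j).length ≤ L → (i, j) ∈ π → Fintype.equivFin (Word N L) i ≤ Fintype.equivFin (Word N L) j

/-- The vertices at a pattern. -/
abbrev Vert (π : Finset (Word N L × Word N L)) : Type := {i // i ∈ reps L π}

/-- The normaliser of a vertex. -/
noncomputable def Gens.uop {π : Finset (Word N L × Word N L)} (a : Vert L π) : H →L[ℂ] H :=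
  G.wops L a.1

variable {L} {χ : Spec A} {π : Finset (Word N L × Word N L)}

theorem Gens.pn_uop (hA : IsMasa M A) (a : Vert L π) : IsPN M A (G.uop L a) :=
  G.pn_wordOp hA _

theorem mem_reps {i : Word N L} : i ∈ reps L π ↔ (wl i).length ≤ L ∧ (i, i) ∈ π ∧
    ∀ j, (wl j).length ≤ L → (i, j) ∈ π →
      Fintype.equivFin (Word N L) i ≤ Fintype.equivFin (Word N L) j := by
  classical
  simp only [reps, Finset.mem_filter, Finset.mem_univ, true_and]

theorem Gens.mem_pat {i j : Word N L} : (i, j) ∈ G.pat L χ ↔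
    χ ∈ dom A (G.wops L i) ∧ χ ∈ dom A (G.wops L j) ∧ pt (G.wops L i) χ = pt (G.wops L j) χ :=
  mem_patt

theorem Gens.dom_uop (hπ : G.pat L χ = π) (a : Vert L π) : χ ∈ dom A (G.uop L a) := by
  subst hπ
  have := (mem_reps.1 a.2).2.1
  exact (G.mem_pat.1 this).1

/-- The point of a vertex. -/
noncomputable def Gens.vpt (χ : Spec A) (a : Vert L π) : Spec A := pt (G.uop L a) χ

theorem Gens.vpt_inj (hπ : G.pat L χ = π) {a b : Vert L π} (h : G.vpt χ a = G.vpt χ b) : a = b := by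
  subst hπ
  have ha := mem_reps.1 a.2
  have hb := mem_reps.1 b.2
  refine Subtype.ext ((Fintype.equivFin (Word N L)).injective (le_antisymm
    (ha.2.2 b.1 hb.1 ?_) (hb.2.2 a.1 ha.1 ?_)))
  · rw [G.mem_pat]; exact ⟨G.dom_uop rfl a, G.dom_uop rfl b, h⟩
  · rw [G.mem_pat]; exact ⟨G.dom_uop rfl b, G.dom_uop rfl a, h.symm⟩

theorem Gens.reach_vpt (hA : IsMasa M A) (hπ : G.pat L χ = π) (a : Vert L π) :
    G.Reach L χ (G.vpt χ a) :=
  G.reach_mono (mem_reps.1 a.2).1 (G.reach_word hA _ (G.dom_uop hπ a))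

theorem Gens.exists_vert (hA : IsMasa M A) (hπ : G.pat L χ = π) {z : Spec A}
    (hz : G.Reach L χ z) : ∃ a : Vert L π, G.vpt χ a = z := by
  subst hπ
  classical
  obtain ⟨l, hl, hd, rfl⟩ := G.exists_word_of_reach hA hz
  obtain ⟨i, hi⟩ := exists_wl (L := L) (l := l) (by omega)
  have hi' : G.wops L i = G.wordOp l := by rw [Gens.wops, hi]
  obtain ⟨k, hk, hk'⟩ := Finset.exists_min_image
    (Finset.univ.filter fun j => (wl j).length ≤ L ∧ (j, i) ∈ G.pat L χ) (Fintype.equivFin (Word N L))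
    ⟨i, by
      rw [Finset.mem_filter, hi, G.mem_pat, hi']
      exact ⟨Finset.mem_univ _, hl, hd, hd, rfl⟩⟩
  rw [Finset.mem_filter] at hk
  have hki := hk.2.2
  rw [G.mem_pat] at hki
  have hmem : k ∈ reps L (G.pat L χ) := by
    refine mem_reps.2 ⟨hk.2.1, ?_, fun j hj hkj => hk' j (Finset.mem_filter.2
      ⟨Finset.mem_univ _, hj, ?_⟩)⟩
    · rw [G.mem_pat]; exact ⟨hki.1, hki.1, rfl⟩
    · rw [G.mem_pat] at hkj ⊢
      exact ⟨hkj.2.1, hki.2.1, hkj.2.2.symm.trans hki.2.2⟩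
  refine ⟨⟨k, hmem⟩, ?_⟩
  rw [← hi']
  exact hki.2.2

open Classical in
/-- The neighbours at a pattern. -/
noncomputable def nbP (π : Finset (Word N L × Word N L)) (a : Vert L π) : Finset (Vert L π) :=
  Finset.univ.filter fun b => ∃ (g : Fin N) (w : Word N L), wl w = g :: wl a.1 ∧ (w, b.1) ∈ π

theorem Gens.mem_nbP (hA : IsMasa M A) (hπ : G.pat L χ = π) {a b : Vert L π} :
    b ∈ nbP π a ↔ G.Step (G.vpt χ a) (G.vpt χ b) := by
  subst hπ
  classical
  have ha := G.pn_uop hA a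
  simp only [nbP, Finset.mem_filter, Finset.mem_univ, true_and]
  constructor
  · rintro ⟨g, w, hw, hm⟩
    rw [G.mem_pat] at hm
    obtain ⟨h1, -, h3⟩ := hm
    have e : G.wops L w = G.v g * G.uop L a := by rw [Gens.wops, hw]; rfl
    rw [e] at h1 h3
    exact ⟨g, ((dom_mul hA (G.pn g) ha).1 h1).2, (pt_mul hA (G.pn g) ha h1).symm.trans h3⟩
  · rintro ⟨g, hg, hgb⟩
    obtain ⟨w, hw⟩ := exists_wl (L := L) (l := g :: wl a.1) (by
      simp only [List.length_cons]; linarith [(mem_reps.1 a.2).1])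
    refine ⟨g, w, hw, ?_⟩
    have e : G.wops L w = G.v g * G.uop L a := by rw [Gens.wops, hw]; rfl
    have hd : χ ∈ dom A (G.v g * G.uop L a) := (dom_mul hA (G.pn g) ha).2 ⟨G.dom_uop rfl a, hg⟩
    rw [G.mem_pat, e]
    exact ⟨hd, G.dom_uop rfl b, (pt_mul hA (G.pn g) ha hd).trans hgb⟩

/-- The element whose orbit nets we form. -/
structure Operand (φ : (H →L[ℂ] H) →ₗ[ℂ] ℂ) (G : Gens M A N) (x : H →L[ℂ] H) : Prop where
  mem : x ∈ M
  sa : IsSelfAdjoint x
  norm_le : ‖x‖ ≤ 1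
  exp_zero : expE A φ x = 0
  rep : ∃ a : Fin N → H →L[ℂ] H, (∀ i, a i ∈ A) ∧ x = ∑ i, a i * G.v i

variable {x : H →L[ℂ] H}

/-- The entry between two vertices. -/
noncomputable def Gens.entry (φ : (H →L[ℂ] H) →ₗ[ℂ] ℂ) (x : H →L[ℂ] H) (χ : Spec A)
    (a b : Vert L π) : ℂ :=
  fib φ χ (G.uop L a) (x * G.uop L b)

theorem fib_sum_right (hφ : IsCState M A φ) {ι : Type*} (s : Finset ι) {y : H →L[ℂ] H}
    {z : ι → H →L[ℂ] H} (hy : y ∈ M) (hz : ∀ i, z i ∈ M) (χ : Spec A) :
    fib φ χ y (∑ i ∈ s, z i) = ∑ i ∈ s, fib φ χ y (z i) := by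
  classical
  induction s using Finset.induction_on with
  | empty => rw [Finset.sum_empty, Finset.sum_empty, fib, mul_zero, hφ.expE_of_mem (zero_mem A), ev_zero]
  | insert i s hi ih =>
    rw [Finset.sum_insert hi, Finset.sum_insert hi,
      fib_add_right hφ hy (hz i) (sum_mem fun j _ => hz j), ih]

theorem fib_sum_left (hφ : IsCState M A φ) {ι : Type*} (s : Finset ι) {z : H →L[ℂ] H}
    {y : ι → H →L[ℂ] H} (hz : z ∈ M) (hy : ∀ i, y i ∈ M) (χ : Spec A) :
    fib φ χ (∑ i ∈ s, y i) z = ∑ i ∈ s, fib φ χ (y i) z := by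
  rw [← fib_conj hφ hz (sum_mem fun i _ => hy i), fib_sum_right hφ s hz hy, map_sum]
  exact Finset.sum_congr rfl fun i _ => fib_conj hφ hz (hy i) χ

/-- The vectors of the vertices are orthonormal. -/
theorem Gens.fib_uop (hφ : IsCState M A φ) (hπ : G.pat L χ = π) (a b : Vert L π) :
    fib φ χ (G.uop L a) (G.uop L b) = if a = b then 1 else 0 := by
  split_ifs with h
  · subst h; exact fib_self_pn hφ (G.pn_uop hφ.masa a) (G.dom_uop hπ a)
  · exact fib_eq_zero_of_ne hφ (G.pn_uop hφ.masa a) (G.pn_uop hφ.masa b)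
      fun h' => h (G.vpt_inj hπ h'.2.2)

theorem Gens.fib_comb (hφ : IsCState M A φ) (hπ : G.pat L χ = π) (a : Vert L π)
    (c : Vert L π → ℂ) : fib φ χ (G.uop L a) (∑ b, c b • G.uop L b) = c a := by
  have hm : ∀ b : Vert L π, G.uop L b ∈ M := fun b => (G.pn_uop hφ.masa b).mem
  rw [fib_sum_right hφ _ (hm a) (fun b => General.smul_mem' M (hm b) _)]
  simp [fib_smul_right hφ (hm a) (hm _), G.fib_uop hφ hπ]

theorem Gens.fib_comb_self (hφ : IsCState M A φ) (hπ : G.pat L χ = π) (c : Vert L π → ℂ) :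
    fib φ χ (∑ b, c b • G.uop L b) (∑ b, c b • G.uop L b) =
      ((∑ b, Complex.normSq (c b) : ℝ) : ℂ) := by
  have hm : ∀ b : Vert L π, G.uop L b ∈ M := fun b => (G.pn_uop hφ.masa b).mem
  rw [fib_sum_left hφ _ (sum_mem fun b _ => General.smul_mem' M (hm b) _)
    (fun b => General.smul_mem' M (hm b) _), Complex.ofReal_sum]
  refine Finset.sum_congr rfl fun b _ => ?_
  rw [fib_smul_left hφ (hm b) (sum_mem fun d _ => General.smul_mem' M (hm d) _),
    G.fib_comb hφ hπ, Complex.normSq_eq_conj_mul_self]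

/-- One term `a · vᵢ` at a vertex: zero or a multiple of the vertex at the next point. -/
theorem Gens.term_cases (hφ : IsCState M A φ) (hπ : G.pat L χ = π) (i : Fin N) {c : H →L[ℂ] H}
    (hc : c ∈ A) (b : Vert L π) :
    FEq φ χ (c * (G.v i * G.uop L b)) 0 ∨
      G.Step (G.vpt χ b) (pt (G.v i) (G.vpt χ b)) ∧ ∃ k : ℂ,
        FEq φ χ (c * (G.v i * G.uop L b)) (k • (G.v i * G.uop L b)) ∧
        χ ∈ dom A (G.v i * G.uop L b) ∧
        pt (G.v i * G.uop L b) χ = pt (G.v i) (G.vpt χ b) := by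
  have hA := hφ.masa
  have hb := G.pn_uop hA b
  have hz := (G.pn i).mul hA hb
  by_cases hd : χ ∈ dom A (G.v i * G.uop L b)
  · have hi := ((dom_mul hA (G.pn i) hb).1 hd).2
    exact Or.inr ⟨⟨i, hi, rfl⟩, _, fEq_A_mul hφ hz hd hc, hd, pt_mul hA (G.pn i) hb hd⟩
  · refine Or.inl ?_
    have := (fEq_zero_of_notMem hφ hz hd).mul_left hφ hz.mem (zero_mem M) (hA.le c hc)
    rwa [mul_zero] at this

theorem Gens.step_of_entry (hφ : IsCState M A φ) (hx : Operand φ G x) (hπ : G.pat L χ = π)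
    {a b : Vert L π} (h : G.entry φ x χ a b ≠ 0) : G.Step (G.vpt χ b) (G.vpt χ a) := by
  obtain ⟨c, hc, rfl⟩ := hx.rep
  have hA := hφ.masa
  have ha := (G.pn_uop hA a).mem
  have hm : ∀ i, c i * G.v i * G.uop L b ∈ M := fun i =>
    mul_mem (mul_mem (hA.le _ (hc i)) (G.pn i).mem) (G.pn_uop hA b).mem
  rw [Gens.entry, Finset.sum_mul, fib_sum_right hφ _ ha hm] at h
  obtain ⟨i, -, hi⟩ := Finset.exists_ne_zero_of_sum_ne_zero h
  rw [mul_assoc] at hi
  have hz := (G.pn i).mul hA (G.pn_uop hA b)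
  rcases G.term_cases hφ hπ i (hc i) b with h0 | ⟨hs, k, hk, hd, hp⟩
  · rw [h0.fib_right hφ (mul_mem (hA.le _ (hc i)) hz.mem) (zero_mem M) ha, fib, mul_zero,
      hφ.expE_of_mem (zero_mem A), ev_zero] at hi
    exact absurd rfl hi
  · rw [hk.fib_right hφ (mul_mem (hA.le _ (hc i)) hz.mem) (General.smul_mem' M hz.mem k) ha,
      fib_smul_right hφ ha hz.mem] at hi
    have hsame : ¬¬ (χ ∈ dom A (G.uop L a) ∧ χ ∈ dom A (G.v i * G.uop L b) ∧
        pt (G.uop L a) χ = pt (G.v i * G.uop L b) χ) := fun hn =>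
      hi (by rw [fib_eq_zero_of_ne hφ (G.pn_uop hA a) hz hn, mul_zero])
    rw [Gens.vpt, Gens.vpt] at *
    rw [(not_not.1 hsame).2.2, hp]
    exact hs

theorem Gens.entry_self (hφ : IsCState M A φ) (hx : Operand φ G x) (a : Vert L π) :
    G.entry φ x χ a a = 0 := by
  have ha := G.pn_uop hφ.masa a
  rw [Gens.entry, fib, ← mul_assoc, ha.expE_conj hφ hx.mem, hx.exp_zero, mul_zero, zero_mul,
    ev_zero]

theorem Gens.entry_conj (hφ : IsCState M A φ) (hx : Operand φ G x) (a b : Vert L π) :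
    starRingEnd ℂ (G.entry φ x χ a b) = G.entry φ x χ b a := by
  have ha := (G.pn_uop hφ.masa a).mem
  have hb := (G.pn_uop hφ.masa b).mem
  rw [Gens.entry, fib_conj hφ ha (mul_mem hx.mem hb), fib, Gens.entry, fib, star_mul,
    hx.sa.star_eq, mul_assoc]

open scoped ComplexConjugate in
theorem Gens.entry_opLe (hφ : IsCState M A φ) (hx : Operand φ G x) (hπ : G.pat L χ = π) :
    Local.OpLe (Finset.univ : Finset (Vert L π)) (G.entry φ x χ) 1 := by
  intro v
  have hm : ∀ b : Vert L π, G.uop L b ∈ M := fun b => (G.pn_uop hφ.masa b).mem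
  have hvm : ∀ b : Vert L π, v b • G.uop L b ∈ M := fun b => General.smul_mem' M (hm b) _
  set y := ∑ b, v b • G.uop L b with hy
  have hyM : y ∈ M := sum_mem fun b _ => hvm b
  have hxy := mul_mem hx.mem hyM
  have e1 : fib φ χ y (x * y) = ∑ l, ∑ u, conj (v l) * G.entry φ x χ l u * v u := by
    rw [hy, Finset.mul_sum, fib_sum_left hφ _ (sum_mem fun b _ => mul_mem hx.mem (hvm b)) hvm]
    refine Finset.sum_congr rfl fun l _ => ?_
    rw [fib_sum_right hφ _ (hvm l) fun b => mul_mem hx.mem (hvm b)]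
    refine Finset.sum_congr rfl fun u _ => ?_
    rw [fib_smul_left hφ (hm l) (mul_mem hx.mem (hvm u)), mul_smul_comm,
      fib_smul_right hφ (hm l) (mul_mem hx.mem (hm u)), Gens.entry]
    ring
  have e2 : (fib φ χ y y).re = ∑ l, Complex.normSq (v l) := by
    rw [hy, G.fib_comb_self hφ hπ, Complex.ofReal_re]
  have h3 : (fib φ χ (x * y) (x * y)).re ≤ (fib φ χ y y).re :=
    (fib_mul_left_le hφ hx.mem hyM χ).trans (mul_le_of_le_one_left
      (Complex.le_def.1 (fib_self_nonneg hφ hyM χ)).1 (pow_le_one₀ (norm_nonneg _) hx.norm_le))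
  have hswap : (fib φ χ (x * y) y).re = (fib φ χ y (x * y)).re := by
    rw [← fib_conj hφ hyM hxy, Complex.conj_re]
  have hadd := (Complex.le_def.1 (fib_self_nonneg hφ (add_mem hyM hxy) χ)).1
  rw [fib_add_left hφ hyM hxy (add_mem hyM hxy), fib_add_right hφ hyM hyM hxy,
    fib_add_right hφ hxy hyM hxy] at hadd
  have hneg : -(x * y) = (-1 : ℂ) • (x * y) := (neg_one_smul ℂ _).symm
  have hsub := (Complex.le_def.1 (fib_self_nonneg hφ (add_mem hyM (neg_mem hxy)) χ)).1
  rw [fib_add_left hφ hyM (neg_mem hxy) (add_mem hyM (neg_mem hxy)),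
    fib_add_right hφ hyM hyM (neg_mem hxy), fib_add_right hφ (neg_mem hxy) hyM (neg_mem hxy),
    hneg, fib_smul_left hφ hxy hyM, fib_smul_left hφ hxy (General.smul_mem' M hxy _),
    fib_smul_right hφ hyM hxy, fib_smul_right hφ hxy hxy] at hsub
  simp only [Complex.add_re, Complex.zero_re, map_neg, map_one, neg_mul, one_mul, Complex.neg_re,
    neg_neg, hswap] at hadd hsub
  rw [← e1, one_mul, ← e2, abs_le]
  constructor <;> linarith

/-- The net at `χ`. -/
noncomputable def Gens.net (hφ : IsCState M A φ) (hx : Operand φ G x) (χ : Spec A)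
    (hπ : G.pat L χ = π) : Local.Net (Vert L π) N where
  nb := nbP π
  symm l u h := (G.mem_nbP hφ.masa hπ).2 (G.step_symm hφ.masa ((G.mem_nbP hφ.masa hπ).1 h))
  card_le l := by
    classical
    have h : ∀ b ∈ nbP π l, ∃ g : Fin N, pt (G.v g) (G.vpt χ l) = G.vpt χ b := fun b hb => by
      obtain ⟨g, -, hg⟩ := (G.mem_nbP hφ.masa hπ).1 hb
      exact ⟨g, hg⟩
    choose g hg using h
    have := Finset.card_le_card_of_injOn (s := (nbP π l).attach) (t := (Finset.univ : Finset (Fin N)))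
      (fun b => g b.1 b.2) (fun _ _ => Finset.mem_univ _)
      fun a _ b _ e => Subtype.ext (G.vpt_inj hπ (by
        rw [← hg a.1 a.2, ← hg b.1 b.2, show g a.1 a.2 = g b.1 b.2 from e]))
    simpa using this
  x := G.entry φ x χ
  herm l u := G.entry_conj hφ hx l u
  diag l := G.entry_self hφ hx l
  supp l u h := (G.mem_nbP hφ.masa hπ).2 (G.step_symm hφ.masa (G.step_of_entry hφ hx hπ h))
  opLe := G.entry_opLe hφ hx hπ

theorem Gens.mem_ball_net (hφ : IsCState M A φ) (hx : Operand φ G x) (hπ : G.pat L χ = π)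
    {b : Vert L π} {j : ℕ} (hj : G.Reach j χ (G.vpt χ b)) : ∀ {k : ℕ}, j + k ≤ L →
    ∀ {a : Vert L π}, a ∈ (G.net hφ hx χ hπ).ball b k ↔ G.Reach k (G.vpt χ b) (G.vpt χ a) := by
  intro k
  induction k with
  | zero =>
    intro _ a
    rw [Local.Net.ball, Local.Net.nbhd, Finset.mem_singleton]
    exact ⟨fun h => by rw [h]; rfl, fun h => G.vpt_inj hπ h⟩
  | succ k ih =>
    intro hk a
    have ih' := @ih (by omega)
    rw [Local.Net.ball, Local.Net.nbhd_succ, Finset.mem_union, Finset.mem_biUnion]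
    constructor
    · rintro (h | ⟨c, hc, ha⟩)
      · exact Or.inl (ih'.1 h)
      · exact Or.inr ⟨_, ih'.1 hc, (G.mem_nbP hφ.masa hπ).1 ha⟩
    · rintro (h | ⟨y, hy, hs⟩)
      · exact Or.inl (ih'.2 h)
      · obtain ⟨c, rfl⟩ := G.exists_vert hφ.masa hπ (G.reach_mono (by omega) (G.reach_trans hj hy))
        exact Or.inr ⟨c, ih'.2 hy, (G.mem_nbP hφ.masa hπ).2 hs⟩

/-- `x` acts on an inner vertex by the entries. -/
theorem Gens.mul_uop (hφ : IsCState M A φ) (hx : Operand φ G x) (hπ : G.pat L χ = π)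
    {b : Vert L π} {j : ℕ} (hj : G.Reach j χ (G.vpt χ b)) (hjL : j < L) :
    FEq φ χ (x * G.uop L b) (∑ a, G.entry φ x χ a b • G.uop L a) := by
  classical
  have hA := hφ.masa
  have hm : ∀ a : Vert L π, G.uop L a ∈ M := fun a => (G.pn_uop hA a).mem
  obtain ⟨c, hc, hxc⟩ := hx.rep
  have hterm : ∀ i, ∃ w : Vert L π → ℂ,
      FEq φ χ (c i * G.v i * G.uop L b) (∑ a, w a • G.uop L a) := by
    intro i
    have hz := (G.pn i).mul hA (G.pn_uop hA b)
    have hcz := mul_mem (hA.le _ (hc i)) hz.mem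
    rw [mul_assoc]
    rcases G.term_cases hφ hπ i (hc i) b with h0 | ⟨hs, k, hk, hd, hp⟩
    · exact ⟨0, by simpa using h0⟩
    · obtain ⟨a, ha⟩ := G.exists_vert hA hπ (G.reach_mono (k := L) (by omega)
        (G.reach_trans hj (k := 1) (Or.inr ⟨_, rfl, hs⟩)))
      obtain ⟨t, -, ht⟩ := fEq_same hφ (G.pn_uop hA a) hz
        (χ := χ) ⟨G.dom_uop hπ a, hd, ha.trans hp.symm⟩
      have h2 : FEq φ χ (k • (G.v i * G.uop L b)) ((k * t) • G.uop L a) := by
        have := ht.mul_left hφ hz.mem (General.smul_mem' M (hm a) t) (General.smul_one_mem M k)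
        simpa [smul_smul, mul_comm] using this
      refine ⟨fun d => if d = a then k * t else 0, ?_⟩
      have e : ∑ d, (if d = a then k * t else 0) • G.uop L d = (k * t) • G.uop L a := by simp
      rw [e]
      exact hk.trans hφ hcz (General.smul_mem' M hz.mem k) (General.smul_mem' M (hm a) _) h2
  choose w hw using hterm
  have hmw : ∀ i, ∑ a, w i a • G.uop L a ∈ M := fun i =>
    sum_mem fun a _ => General.smul_mem' M (hm a) _
  have hl : ∀ i, c i * G.v i * G.uop L b ∈ M := fun i =>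
    mul_mem (mul_mem (hA.le _ (hc i)) (G.pn i).mem) (hm b)
  have hxb : x * G.uop L b = ∑ i, c i * G.v i * G.uop L b := by rw [hxc, Finset.sum_mul]
  have hsum : FEq φ χ (x * G.uop L b) (∑ a, (∑ i, w i a) • G.uop L a) := by
    have e : ∑ a, (∑ i, w i a) • G.uop L a = ∑ i, ∑ a, w i a • G.uop L a := by
      rw [Finset.sum_comm]; exact Finset.sum_congr rfl fun a _ => Finset.sum_smul
    rw [hxb, e]
    exact FEq.sum hφ _ hl hmw fun i _ => hw i
  have he : ∀ a, G.entry φ x χ a b = ∑ i, w i a := fun a => by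
    rw [Gens.entry, hsum.fib_right hφ (mul_mem hx.mem (hm b))
      (sum_mem fun d _ => General.smul_mem' M (hm d) _) (hm a), G.fib_comb hφ hπ]
  simp only [he]
  exact hsum

end Vale.Agent.P078.General.Single.Colours
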