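import Vale.Agent.P078.Colours.Core
import Vale.Agent.P078.Local.Final.Main

/-!
# `StmtColours`, unconditionally
-/

namespace Vale.Agent.P078.General.Single.Colours

universe u

/-- The local rule, with the lower bound on the number of colours. -/
theorem goalR : GoalR := Local.Final.goal_lb.{0}

/-- Piece 3. -/
theorem stmtColours : Final.StmtColours.{u} := stmtColours_of_goal goalR

end Vale.Agent.P078.General.Single.Colours
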