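import Vale.Agent.P078.Colours.Patterns
import Vale.Agent.P078.Free.Near

/-!
# Functions of the seeds at the points of a separated family
-/

namespace Vale.Agent.P078.General.Single.Colours

open scoped InnerProductSpace Topology ComplexOrder
open Filter WeakDual Vale.Agent.P078.General.Orbit

universe u

variable {H : Type u} [NormedAddCommGroup H] [InnerProductSpace ℂ H] [CompleteSpace H]
variable {M A : VonNeumannAlgebra H} {φ : (H →L[ℂ] H) →ₗ[ℂ] ℂ} {β : Type}
variable {ι : Type*} [Fintype ι]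

/-- The seed seen at `χ` through the points of `u`. -/
noncomputable def seedAt (Q : Part A (1 : H →L[ℂ] H)) (c : Fin Q.n → β) (u : ι → H →L[ℂ] H)
    (χ : Spec A) (i : ι) : β :=
  c (cellAt Q (pt (u i) χ))

open Classical in
/-- The element of `A` that on `f` is `g` of the seeds at the points of `u`. -/
noncomputable def loc (A : VonNeumannAlgebra H) (f : H →L[ℂ] H) (u : ι → H →L[ℂ] H)
    (g : (ι → β) → ℝ) : SFam A β := fun Q c =>
  if h : ∃ a ∈ A, ∀ χ : Spec A,
      ev χ a = if χ ∈ clop A f then ((g (seedAt Q c u χ) : ℝ) : ℂ) else 0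
  then h.choose else 0

theorem isClopen_seedAt (hA : IsMasa M A) {u : ι → H →L[ℂ] H} (hu : ∀ i, IsPN M A (u i))
    (Q : Part A (1 : H →L[ℂ] H)) (c : Fin Q.n → β) (s : ι → β) :
    IsClopen {χ : Spec A | seedAt Q c u χ = s} := by
  classical
  have e : {χ : Spec A | seedAt Q c u χ = s} = ⋂ i, ⋃ j : {j : Fin Q.n // c j = s i},
      (fun χ => pt (u i) χ) ⁻¹' clop A (Q.p j.1) := by
    ext χ
    simp only [Set.mem_ofPred_eq, Set.mem_iInter, Set.mem_iUnion, Set.mem_preimage, funext_iff]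
    refine forall_congr' fun i => ⟨fun h => ⟨⟨_, h⟩, mem_cellAt Q _⟩, ?_⟩
    rintro ⟨⟨j, hj⟩, hm⟩
    simp only [seedAt, eq_cellAt Q hm, hj]
  rw [e]
  exact isClopen_iInter_of_finite fun i => isClopen_iUnion_of_finite fun j =>
    (isClopen_clop (Q.isPart.mem j.1) (Q.isPart.proj j.1)).preimage (continuous_pt hA (hu i))

open Classical in
theorem loc_spec [Fintype β] (hA : IsMasa M A) {f : H →L[ℂ] H} {u : ι → H →L[ℂ] H}
    (hf : f ∈ A) (hfp : IsStarProjection f) (hu : ∀ i, IsPN M A (u i)) (g : (ι → β) → ℝ)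
    (Q : Part A (1 : H →L[ℂ] H)) (c : Fin Q.n → β) :
    loc A f u g Q c ∈ A ∧ ∀ χ : Spec A, ev χ (loc A f u g Q c) =
      if χ ∈ clop A f then ((g (seedAt Q c u χ) : ℝ) : ℂ) else 0 := by
  classical
  have hex : ∃ a ∈ A, ∀ χ : Spec A,
      ev χ a = if χ ∈ clop A f then ((g (seedAt Q c u χ) : ℝ) : ℂ) else 0 := by
    choose e he hep hes using fun s => exists_of_clopen hA.comm
      ((isClopen_clop hf hfp).inter (isClopen_seedAt hA hu Q c s))
    have hm : ∀ s, ((g s : ℝ) : ℂ) • e s ∈ A := fun s => General.smul_mem' A (he s) _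
    refine ⟨∑ s, ((g s : ℝ) : ℂ) • e s, sum_mem fun s _ => hm s, fun χ => ?_⟩
    rw [ev_sum χ _ hm]
    have hz : ∀ s, ev χ (((g s : ℝ) : ℂ) • e s) =
        if χ ∈ clop A f ∧ seedAt Q c u χ = s then ((g s : ℝ) : ℂ) else 0 := fun s => by
      rw [ev_smul χ (he s)]
      split_ifs with h
      · rw [show ev χ (e s) = 1 from (hes s ▸ h : χ ∈ clop A (e s)), mul_one]
      · rw [(ev_eq_zero_iff (he s) (hep s)).2 (by rw [hes s]; exact h), mul_zero]
    simp only [hz]
    split_ifs with h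
    · simp [h]
    · simp [h]
  rw [loc, dif_pos hex]
  exact hex.choose_spec

theorem loc_mem [Fintype β] (hA : IsMasa M A) {f : H →L[ℂ] H} {u : ι → H →L[ℂ] H}
    (hf : f ∈ A) (hfp : IsStarProjection f) (hu : ∀ i, IsPN M A (u i)) (g : (ι → β) → ℝ)
    (Q : Part A (1 : H →L[ℂ] H)) (c : Fin Q.n → β) : loc A f u g Q c ∈ A :=
  (loc_spec hA hf hfp hu g Q c).1

open Classical in
theorem ev_loc [Fintype β] (hA : IsMasa M A) {f : H →L[ℂ] H} {u : ι → H →L[ℂ] H}
    (hf : f ∈ A) (hfp : IsStarProjection f) (hu : ∀ i, IsPN M A (u i)) (g : (ι → β) → ℝ)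
    (Q : Part A (1 : H →L[ℂ] H)) (c : Fin Q.n → β) (χ : Spec A) :
    ev χ (loc A f u g Q c) = if χ ∈ clop A f then ((g (seedAt Q c u χ) : ℝ) : ℂ) else 0 :=
  (loc_spec hA hf hfp hu g Q c).2 χ

end Vale.Agent.P078.General.Single.Colours
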