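import Vale.Agent.P078.Colours.Points

/-!
# Coincidence patterns of finitely many normalisers are locally constant; separation by fine
partitions
-/

namespace Vale.Agent.P078.General.Single.Colours

open scoped InnerProductSpace Topology ComplexOrder
open Filter WeakDual Vale.Agent.P078.General.Orbit

universe u

variable {H : Type u} [NormedAddCommGroup H] [InnerProductSpace ℂ H] [CompleteSpace H]
variable {M A : VonNeumannAlgebra H} {φ : (H →L[ℂ] H) →ₗ[ℂ] ℂ}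

/-- The coincidence pattern of `w` at `χ`. -/
noncomputable def patt {ι : Type*} [Fintype ι] (w : ι → H →L[ℂ] H) (χ : Spec A) :
    Finset (ι × ι) :=
  letI : DecidablePred fun q : ι × ι => χ ∈ same A (w q.1) (w q.2) := Classical.decPred _
  Finset.univ.filter fun q : ι × ι => χ ∈ same A (w q.1) (w q.2)

theorem mem_patt {ι : Type*} [Fintype ι] {w : ι → H →L[ℂ] H} {χ : Spec A} {i j : ι} :
    (i, j) ∈ patt w χ ↔ χ ∈ dom A (w i) ∧ χ ∈ dom A (w j) ∧ pt (w i) χ = pt (w j) χ := by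
  classical
  simp only [patt, Finset.mem_filter, Finset.mem_univ, true_and]
  exact Iff.rfl

theorem patt_congr {ι : Type*} [Fintype ι] {w : ι → H →L[ℂ] H} {χ ψ : Spec A}
    (h : patt w χ = patt w ψ) (i j : ι) :
    (χ ∈ dom A (w i) ↔ ψ ∈ dom A (w i)) ∧
      (χ ∈ dom A (w i) → χ ∈ dom A (w j) → (pt (w i) χ = pt (w j) χ ↔ pt (w i) ψ = pt (w j) ψ)) := by
  have key : ∀ i j, (χ ∈ dom A (w i) ∧ χ ∈ dom A (w j) ∧ pt (w i) χ = pt (w j) χ) ↔
      (ψ ∈ dom A (w i) ∧ ψ ∈ dom A (w j) ∧ pt (w i) ψ = pt (w j) ψ) := fun i j => by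
    rw [← mem_patt, ← mem_patt, h]
  have hd : ∀ i, χ ∈ dom A (w i) ↔ ψ ∈ dom A (w i) := fun i => by
    simpa using key i i
  exact ⟨hd i, fun hi hj => ⟨fun e => ((key i j).1 ⟨hi, hj, e⟩).2.2,
    fun e => ((key i j).2 ⟨(hd i).1 hi, (hd j).1 hj, e⟩).2.2⟩⟩

theorem isClopen_patt (hφ : IsCState M A φ) {ι : Type*} [Fintype ι] {w : ι → H →L[ℂ] H}
    (hw : ∀ i, IsPN M A (w i)) (π : Finset (ι × ι)) : IsClopen {χ : Spec A | patt w χ = π} := by
  classical
  have e : {χ : Spec A | patt w χ = π} = ⋂ q : ι × ι,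
      if q ∈ π then same A (w q.1) (w q.2) else (same A (w q.1) (w q.2))ᶜ := by
    ext χ
    simp only [Set.mem_iInter, Set.mem_ofPred_eq]
    constructor
    · rintro rfl q
      split_ifs with h
      · exact (mem_patt (i := q.1) (j := q.2)).1 h
      · exact fun h' => h ((mem_patt (i := q.1) (j := q.2)).2 h')
    · intro h
      ext q
      obtain ⟨i, j⟩ := q
      have h' := h (i, j)
      rw [mem_patt]
      split_ifs at h' with hq
      · exact iff_of_true h' hq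
      · exact iff_of_false h' hq
  rw [e]
  exact isClopen_iInter_of_finite fun q => by
    split_ifs
    exacts [isClopen_same hφ (hw _) (hw _), (isClopen_same hφ (hw _) (hw _)).compl]

/-- On `f` all `u i` are defined and move the point to different places. -/
structure Sep (M A : VonNeumannAlgebra H) {ι : Type*} (f : H →L[ℂ] H) (u : ι → H →L[ℂ] H) :
    Prop where
  mem : f ∈ A
  proj : IsStarProjection f
  pn : ∀ i, IsPN M A (u i)
  dom : ∀ χ ∈ clop A f, ∀ i, χ ∈ dom A (u i)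
  inj : ∀ χ ∈ clop A f, ∀ i j, pt (u i) χ = pt (u j) χ → i = j

/-- A finite family of normalisers defined on `F` becomes separated on the pieces of a partition. -/
theorem exists_sep (hφ : IsCState M A φ) {ι : Type} [Fintype ι] {w : ι → H →L[ℂ] H}
    (hw : ∀ i, IsPN M A (w i)) {F : Set (Spec A)} (hF : IsClopen F)
    (hd : ∀ χ ∈ F, ∀ i, χ ∈ dom A (w i)) :
    ∃ (f : Finset (ι × ι) → H →L[ℂ] H) (κ : Finset (ι × ι) → Type)
      (_ : ∀ π, Fintype (κ π)) (u : ∀ π, κ π → H →L[ℂ] H) (π' : ∀ π, ι → κ π),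
      (∀ π, Sep M A (f π) (u π)) ∧ (∀ π, clop A (f π) ⊆ F) ∧
      (∀ χ ∈ F, χ ∈ clop A (f (patt w χ))) ∧ (∀ χ π, χ ∈ clop A (f π) → patt w χ = π) ∧
      ∀ π, ∀ χ ∈ clop A (f π), ∀ i, pt (w i) χ = pt (u π (π' π i)) χ := by
  classical
  have hA := hφ.masa
  choose f hf hfp hfs using fun π => exists_of_clopen hA.comm
    (hF.inter (isClopen_patt hφ hw π))
  let S : Finset (ι × ι) → Type := fun π =>
    {i : ι // ∀ j, (i, j) ∈ π → Fintype.equivFin ι i ≤ Fintype.equivFin ι j}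
  have hmin : ∀ π i, (∃ χ, χ ∈ clop A (f π)) → ∃ k : S π, (k.1, i) ∈ π := by
    rintro π i ⟨χ, hχ⟩
    rw [hfs] at hχ
    obtain ⟨hχF, rfl⟩ := hχ
    obtain ⟨k, hk, hk'⟩ := Finset.exists_min_image
      (Finset.univ.filter fun j => (j, i) ∈ patt w χ) (Fintype.equivFin ι)
      ⟨i, by simp [mem_patt, hd χ hχF i]⟩
    rw [Finset.mem_filter] at hk
    refine ⟨⟨k, fun j hj => hk' j (Finset.mem_filter.2 ⟨Finset.mem_univ _, ?_⟩)⟩, hk.2⟩
    obtain ⟨-, h1, h2⟩ := mem_patt.1 hk.2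
    obtain ⟨-, h3, h4⟩ := mem_patt.1 hj
    exact mem_patt.2 ⟨h3, h1, h4.symm.trans h2⟩
  have hS : ∀ (π : Finset (ι × ι)) (i : ι), Nonempty (S π) := fun π i => by
    obtain ⟨k, -, hk⟩ := Finset.exists_min_image Finset.univ (Fintype.equivFin ι)
      ⟨i, Finset.mem_univ i⟩
    exact ⟨⟨k, fun j _ => hk j (Finset.mem_univ j)⟩⟩
  have hex : ∀ π i, ∃ k : S π, ∀ χ ∈ clop A (f π), pt (w i) χ = pt (w k.1) χ := by
    intro π i
    by_cases h : ∃ χ, χ ∈ clop A (f π)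
    · obtain ⟨k, hk⟩ := hmin π i h
      refine ⟨k, fun χ hχ => ?_⟩
      rw [hfs] at hχ
      obtain ⟨-, rfl⟩ := hχ
      exact (mem_patt.1 hk).2.2.symm
    · obtain ⟨k⟩ := hS π i
      exact ⟨k, fun χ hχ => absurd ⟨χ, hχ⟩ h⟩
  choose π' hπ' using hex
  refine ⟨f, S, fun π => inferInstance, fun π i => w i.1, π', fun π => ⟨hf π, hfp π, fun i => hw _,
    fun χ hχ i => hd χ ((hfs π ▸ hχ : _ ∈ F ∩ _)).1 _, fun χ hχ i j e => ?_⟩,
    fun π => hfs π ▸ Set.inter_subset_left, fun χ hχ => hfs _ ▸ ⟨hχ, rfl⟩,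
    fun χ π hχ => ((hfs π ▸ hχ : _ ∈ F ∩ {χ | patt w χ = π})).2,
    fun π χ hχ i => hπ' π i χ hχ⟩
  rw [hfs] at hχ
  obtain ⟨hχF, rfl⟩ := hχ
  exact Subtype.ext ((Fintype.equivFin ι).injective (le_antisymm
    (i.2 j.1 (mem_patt.2 ⟨hd χ hχF _, hd χ hχF _, e⟩))
    (j.2 i.1 (mem_patt.2 ⟨hd χ hχF _, hd χ hχF _, e.symm⟩))))

theorem exists_cell (Q : Part A (1 : H →L[ℂ] H)) (χ : Spec A) : ∃ j, χ ∈ clop A (Q.p j) := by
  by_contra hne
  have h1 : ev χ (∑ k, Q.p k) = 1 := by rw [Q.isPart.sum_eq, ev_one]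
  rw [ev_sum χ _ fun k => Q.isPart.mem k, Finset.sum_eq_zero fun k _ => (ev_eq_zero_iff
    (Q.isPart.mem k) (Q.isPart.proj k)).2 fun h => hne ⟨k, h⟩] at h1
  exact zero_ne_one h1

/-- The cell of `χ`. -/
noncomputable def cellAt (Q : Part A (1 : H →L[ℂ] H)) (χ : Spec A) : Fin Q.n :=
  (exists_cell Q χ).choose

theorem mem_cellAt (Q : Part A (1 : H →L[ℂ] H)) (χ : Spec A) : χ ∈ clop A (Q.p (cellAt Q χ)) :=
  (exists_cell Q χ).choose_spec

theorem cell_unique (Q : Part A (1 : H →L[ℂ] H)) {χ : Spec A} {i j : Fin Q.n}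
    (hi : χ ∈ clop A (Q.p i)) (hj : χ ∈ clop A (Q.p j)) : i = j := by
  by_contra h
  have := Q.isPart.orth i j h
  have h1 : χ ∈ clop A (Q.p i * Q.p j) := by
    rw [clop_mul (Q.isPart.mem i) (Q.isPart.proj i) (Q.isPart.mem j)]; exact ⟨hi, hj⟩
  rw [this, clop_zero] at h1
  exact h1

theorem eq_cellAt (Q : Part A (1 : H →L[ℂ] H)) {χ : Spec A} {i : Fin Q.n}
    (hi : χ ∈ clop A (Q.p i)) : cellAt Q χ = i :=
  cell_unique Q (mem_cellAt Q χ) hi

/-- Fine partitions separate the points of a separated family. -/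
theorem Sep.eventually_cells (hφ : IsCState M A φ) {ι : Type*} [Fintype ι] {f : H →L[ℂ] H}
    {u : ι → H →L[ℂ] H} (hS : Sep M A f u) :
    ∀ᶠ Q in refF A, ∀ χ ∈ clop A f, ∀ i j,
      cellAt Q (pt (u i) χ) = cellAt Q (pt (u j) χ) → i = j := by
  classical
  have hA := hφ.masa
  have key : ∀ i j, i ≠ j → ∀ᶠ Q in refF A, ∀ χ ∈ clop A f,
      cellAt Q (pt (u i) χ) ≠ cellAt Q (pt (u j) χ) := by
    intro i j hij
    have hsep : ∀ χ : clop A f, ∃ p ∈ A, IsStarProjection p ∧ pt (u i) (χ : Spec A) ∈ clop A p ∧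
        pt (u j) (χ : Spec A) ∉ clop A p :=
      fun χ => exists_separating hA.comm fun e => hij (hS.inj _ χ.2 i j e)
    choose p hp hpp hpi hpj using hsep
    obtain ⟨t, ht⟩ := ((isClopen_clop hS.mem hS.proj).1.isCompact).elim_finite_subcover
      (fun χ : clop A f => (fun ψ => pt (u i) ψ) ⁻¹' clop A (p χ) ∩
        (fun ψ => pt (u j) ψ) ⁻¹' (clop A (p χ))ᶜ)
      (fun χ => ((isClopen_clop (hp χ) (hpp χ)).2.preimage (continuous_pt hA (hS.pn i))).inter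
        ((isClopen_clop (hp χ) (hpp χ)).1.isOpen_compl.preimage (continuous_pt hA (hS.pn j))))
      (fun χ hχ => Set.mem_iUnion.2 ⟨⟨χ, hχ⟩, hpi ⟨χ, hχ⟩, hpj ⟨χ, hχ⟩⟩)
    obtain ⟨P, hP⟩ := exists_common_refinement hA.comm t fun χ => twoPart (hp χ) (hpp χ)
    filter_upwards [eventually_refines P] with Q hQ ψ hψ e
    obtain ⟨χ, hχt, h1, h2⟩ := Set.mem_iUnion₂.1 (ht hψ)
    have hi := mem_cellAt Q (pt (u i) ψ)
    have hj := mem_cellAt Q (pt (u j) ψ)
    rw [← e] at hj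
    generalize hc : cellAt Q (pt (u i) ψ) = c at hi hj
    rcases Part.refines_trans hQ (hP χ hχt) c (0 : Fin 2) with h | h
    · have h' : Q.p c * p χ = Q.p c := h
      rw [← h', clop_mul (Q.isPart.mem c) (Q.isPart.proj c) (hp χ)] at hj
      exact h2 hj.2
    · have h' : Q.p c * p χ = 0 := h
      have h3 : pt (u i) ψ ∈ clop A (Q.p c * p χ) := by
        rw [clop_mul (Q.isPart.mem c) (Q.isPart.proj c) (hp χ)]; exact ⟨hi, h1⟩
      rw [h', clop_zero] at h3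
      exact h3
  have hall : ∀ᶠ Q in refF A, ∀ q : ι × ι, q.1 ≠ q.2 → ∀ χ ∈ clop A f,
      cellAt Q (pt (u q.1) χ) ≠ cellAt Q (pt (u q.2) χ) := by
    refine eventually_all.2 fun q => ?_
    by_cases h : q.1 = q.2
    · exact .of_forall fun Q h' => absurd h h'
    · exact (key _ _ h).mono fun Q hQ _ => hQ
  filter_upwards [hall] with Q hQ χ hχ i j e
  by_contra h
  exact hQ (i, j) h χ hχ e

end Vale.Agent.P078.General.Single.Colours
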