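import Vale.Agent.P078.Colours.Stonean
import Vale.Agent.P078.Orbit.Atoms

/-!
# Partial normalisers act on the spectrum; the fibre form of the expectation
-/

namespace Vale.Agent.P078.General.Single.Colours

open scoped InnerProductSpace Topology ComplexOrder
open Filter WeakDual Vale.Agent.P078.General.Orbit

universe u

variable {H : Type u} [NormedAddCommGroup H] [InnerProductSpace ℂ H] [CompleteSpace H]
variable {M A : VonNeumannAlgebra H} {φ : (H →L[ℂ] H) →ₗ[ℂ] ℂ} {u v w : H →L[ℂ] H}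

/-- The domain of `v` in the spectrum. -/
def dom (A : VonNeumannAlgebra H) (v : H →L[ℂ] H) : Set (Spec A) := clop A (star v * v)

theorem isClopen_dom (hv : IsPN M A v) : IsClopen (dom A v) :=
  isClopen_clop hv.src_memA hv.isStarProjection_src

theorem exists_pt (hA : IsMasa M A) (hv : IsPN M A v) {χ : Spec A} (hχ : χ ∈ dom A v) :
    ∃ ψ : Spec A, ∀ a ∈ A, ev ψ a = ev χ (star v * a * v) := by
  have hmem : ∀ a : A.toStarSubalgebra, star v * (a : H →L[ℂ] H) * v ∈ A := fun a => hv.conj' _ a.2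
  let f : A.toStarSubalgebra →ₐ[ℂ] ℂ :=
    { toFun := fun a => ev χ (star v * (a : H →L[ℂ] H) * v)
      map_one' := by simpa [dom, mem_clop, OneMemClass.coe_one] using hχ
      map_mul' := fun a b => by
        rw [← ev_mul χ (hmem a) (hmem b)]
        congr 1
        rw [MulMemClass.coe_mul, mul_assoc (star v * (a : H →L[ℂ] H)) v, ← mul_assoc v,
          ← mul_assoc v, ← mul_assoc (star v * (a : H →L[ℂ] H))]
        congr 1
        calc star v * ((a : H →L[ℂ] H) * b)
            = star v * (v * star v) * ((a : H →L[ℂ] H) * b) := by rw [hv.star_mul_tgt]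
          _ = star v * ((v * star v) * a) * b := by simp only [mul_assoc]
          _ = star v * (a * (v * star v)) * b := by rw [(hA.comm _ hv.tgt_memA _ a.2).eq]
          _ = _ := by simp only [mul_assoc]
      map_zero' := by simp
      map_add' := fun a b => by
        rw [← ev_add χ (hmem a) (hmem b), AddMemClass.coe_add, mul_add, add_mul]
      commutes' := fun c => by
        have e : ((algebraMap ℂ A.toStarSubalgebra c : A.toStarSubalgebra) : H →L[ℂ] H) = c • 1 :=
          Algebra.algebraMap_eq_smul_one c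
        rw [e, mul_smul_comm, mul_one, smul_mul_assoc, ev_smul χ hv.src_memA, mem_clop.1 hχ,
          mul_one]
        rfl }
  refine ⟨CharacterSpace.equivAlgHom.symm f, fun a ha => ?_⟩
  rw [ev_of_mem _ ha]
  rfl

/-- The point map of `v`: its partial homeomorphism, extended by the identity. -/
noncomputable def pt (v : H →L[ℂ] H) (χ : Spec A) : Spec A :=
  open scoped Classical in
  if h : χ ∈ dom A v ∧ ∃ ψ : Spec A, ∀ a ∈ A, ev ψ a = ev χ (star v * a * v) then h.2.choose else χ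

theorem ev_pt (hA : IsMasa M A) (hv : IsPN M A v) {χ : Spec A} (hχ : χ ∈ dom A v)
    {a : H →L[ℂ] H} (ha : a ∈ A) : ev (pt v χ) a = ev χ (star v * a * v) := by
  have h : χ ∈ dom A v ∧ ∃ ψ : Spec A, ∀ a ∈ A, ev ψ a = ev χ (star v * a * v) :=
    ⟨hχ, exists_pt hA hv hχ⟩
  rw [pt, dif_pos h]
  exact h.2.choose_spec a ha

theorem pt_of_notMem {χ : Spec A} (hχ : χ ∉ dom A v) : pt v χ = χ := by
  rw [pt, dif_neg fun h => hχ h.1]

theorem spec_ext {χ ψ : Spec A} (h : ∀ a ∈ A, ev χ a = ev ψ a) : χ = ψ := by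
  refine CharacterSpace.ext fun a => ?_
  have := h a a.2
  rwa [ev_of_mem χ a.2, ev_of_mem ψ a.2] at this

@[simp] theorem pt_one (hA : IsMasa M A) (χ : Spec A) : pt 1 χ = χ :=
  spec_ext fun a ha => by rw [ev_pt hA (IsPN.one hA) (by simp [dom]) ha]; simp

theorem pt_mem_tgt (hA : IsMasa M A) (hv : IsPN M A v) {χ : Spec A} (hχ : χ ∈ dom A v) :
    pt v χ ∈ dom A (star v) := by
  rw [dom, star_star, mem_clop, ev_pt hA hv hχ hv.tgt_memA, hv.star_mul_tgt]
  exact mem_clop.1 hχ

theorem dom_mul (hA : IsMasa M A) (hv : IsPN M A v) (hw : IsPN M A w) {χ : Spec A} :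
    χ ∈ dom A (v * w) ↔ χ ∈ dom A w ∧ pt w χ ∈ dom A v := by
  have hs : star (v * w) * (v * w) = star w * (star v * v) * w := by
    rw [star_mul]; simp only [mul_assoc]
  have hle : star (v * w) * (v * w) * (star w * w) = star (v * w) * (v * w) := by
    calc star (v * w) * (v * w) * (star w * w)
        = star w * (star v * v) * (w * (star w * w)) := by rw [hs]; simp only [mul_assoc]
      _ = _ := by rw [hw.pi, hs]
  have hP : IsPN M A (v * w) := hv.mul hA hw
  constructor
  · intro h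
    have h1 : χ ∈ dom A w := by
      have h2 : χ ∈ clop A (star (v * w) * (v * w) * (star w * w)) := by rw [hle]; exact h
      rw [clop_mul hP.src_memA hP.isStarProjection_src hw.src_memA] at h2
      exact h2.2
    refine ⟨h1, ?_⟩
    rw [dom, mem_clop, ev_pt hA hw h1 hv.src_memA, ← hs]
    exact h
  · rintro ⟨h1, h2⟩
    rw [dom, mem_clop, hs, ← ev_pt hA hw h1 hv.src_memA]
    exact h2

theorem pt_mul (hA : IsMasa M A) (hv : IsPN M A v) (hw : IsPN M A w) {χ : Spec A}
    (h : χ ∈ dom A (v * w)) : pt (v * w) χ = pt v (pt w χ) := by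
  obtain ⟨h1, h2⟩ := (dom_mul hA hv hw).1 h
  refine spec_ext fun a ha => ?_
  rw [ev_pt hA (hv.mul hA hw) h ha, ev_pt hA hv h2 ha, ev_pt hA hw h1 (hv.conj' a ha), star_mul]
  simp only [mul_assoc]

theorem pt_star (hA : IsMasa M A) (hv : IsPN M A v) {χ : Spec A} (hχ : χ ∈ dom A v) :
    pt (star v) (pt v χ) = χ := by
  refine spec_ext fun a ha => ?_
  rw [ev_pt hA hv.star (pt_mem_tgt hA hv hχ) ha, star_star, ev_pt hA hv hχ (hv.conj a ha)]
  have e : star v * (v * a * star v) * v = star v * v * a * (star v * v) := by simp only [mul_assoc]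
  rw [e, ev_mul χ (mul_mem hv.src_memA ha) hv.src_memA, ev_mul χ hv.src_memA ha, mem_clop.1 hχ,
    one_mul, mul_one]

theorem continuous_pt (hA : IsMasa M A) (hv : IsPN M A v) :
    Continuous fun χ : Spec A => pt v χ := by
  classical
  refine continuous_induced_rng.2 (WeakDual.continuous_of_continuous_eval fun a => ?_)
  have e : (fun χ : Spec A => ((pt v χ : WeakDual ℂ A.toStarSubalgebra)) a) =
      fun χ => if χ ∈ dom A v then ev χ (star v * (a : H →L[ℂ] H) * v) else ev χ a := by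
    funext χ
    have ea : ∀ ψ : Spec A, (ψ : WeakDual ℂ A.toStarSubalgebra) a = ev ψ a := fun ψ =>
      (ev_of_mem ψ a.2).symm
    split_ifs with h
    · rw [ea, ev_pt hA hv h a.2]
    · rw [ea, pt_of_notMem h]
  simp only [Function.comp_def, e]
  exact continuous_if (fun χ hχ => absurd hχ (by simp [Set.ofPred_mem_eq, (isClopen_dom hv).frontier_eq]))
    (continuous_ev _).continuousOn (continuous_ev _).continuousOn

theorem isOpenMap_pt (hA : IsMasa M A) (hv : IsPN M A v) :
    IsOpenMap fun χ : Spec A => pt v χ := by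
  intro U hU
  have e : (fun χ => pt v χ) '' U = (U ∩ (dom A v)ᶜ) ∪
      (dom A (star v) ∩ (fun χ => pt (star v) χ) ⁻¹' (U ∩ dom A v)) := by
    ext ψ
    constructor
    · rintro ⟨χ, hχ, rfl⟩
      by_cases h : χ ∈ dom A v
      · refine Or.inr ⟨pt_mem_tgt hA hv h, ?_⟩
        rw [Set.mem_preimage, pt_star hA hv h]
        exact ⟨hχ, h⟩
      · refine Or.inl ?_
        show pt v χ ∈ _
        rw [pt_of_notMem h]
        exact ⟨hχ, h⟩
    · rintro (⟨h1, h2⟩ | ⟨h1, h2, h3⟩)
      · exact ⟨ψ, h1, pt_of_notMem h2⟩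
      · exact ⟨_, h2, by simpa using pt_star hA hv.star h1⟩
  rw [e]
  exact (hU.inter (isClopen_dom hv).1.isOpen_compl).union
    ((isClopen_dom hv.star).2.inter ((hU.inter (isClopen_dom hv).2).preimage
      (continuous_pt hA hv.star)))

theorem eventually_pt (hA : IsMasa M A) (hv : IsPN M A v) {P : Spec A → Prop}
    (h : ∀ᶠ χ in residual (Spec A), P χ) : ∀ᶠ χ in residual (Spec A), P (pt v χ) :=
  tendsto_residual_of_isOpenMap (continuous_pt hA hv) (isOpenMap_pt hA hv) h

/-- A projection separating two points. -/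
theorem exists_separating (hc : ∀ a ∈ A, ∀ b ∈ A, Commute a b) {χ ψ : Spec A} (h : χ ≠ ψ) :
    ∃ p ∈ A, IsStarProjection p ∧ χ ∈ clop A p ∧ ψ ∉ clop A p := by
  obtain ⟨U, V, hU, -, hχ, hψ, hd⟩ := t2_separation h
  obtain ⟨p, hp, hpp, hχp, hpU⟩ := exists_clop_subset hc hU hχ
  exact ⟨p, hp, hpp, hχp, fun h' => hd.le_bot ⟨hpU h', hψ⟩⟩

/-- The fibre form at `χ`. -/
noncomputable def fib (φ : (H →L[ℂ] H) →ₗ[ℂ] ℂ) (χ : Spec A) (y z : H →L[ℂ] H) : ℂ :=
  ev χ (expE A φ (star y * z))

/-- `y` and `z` agree in the fibre at `χ`. -/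
def FEq (φ : (H →L[ℂ] H) →ₗ[ℂ] ℂ) (χ : Spec A) (y z : H →L[ℂ] H) : Prop := fib φ χ (y - z) (y - z) = 0

variable {y z y' z' : H →L[ℂ] H} {χ : Spec A}

theorem fib_add_left (hφ : IsCState M A φ) (hy : y ∈ M) (hy' : y' ∈ M) (hz : z ∈ M) (χ : Spec A) :
    fib φ χ (y + y') z = fib φ χ y z + fib φ χ y' z := by
  rw [fib, fib, fib, star_add, add_mul, hφ.expE_add (mul_mem (star_mem hy) hz)
    (mul_mem (star_mem hy') hz), ev_add χ (hφ.expE_mem (mul_mem (star_mem hy) hz))
    (hφ.expE_mem (mul_mem (star_mem hy') hz))]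

theorem fib_add_right (hφ : IsCState M A φ) (hy : y ∈ M) (hz : z ∈ M) (hz' : z' ∈ M) (χ : Spec A) :
    fib φ χ y (z + z') = fib φ χ y z + fib φ χ y z' := by
  rw [fib, fib, fib, mul_add, hφ.expE_add (mul_mem (star_mem hy) hz)
    (mul_mem (star_mem hy) hz'), ev_add χ (hφ.expE_mem (mul_mem (star_mem hy) hz))
    (hφ.expE_mem (mul_mem (star_mem hy) hz'))]

theorem fib_smul_right (hφ : IsCState M A φ) (hy : y ∈ M) (hz : z ∈ M) (c : ℂ) (χ : Spec A) :
    fib φ χ y (c • z) = c * fib φ χ y z := by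
  rw [fib, fib, mul_smul_comm, hφ.expE_smul (mul_mem (star_mem hy) hz),
    ev_smul χ (hφ.expE_mem (mul_mem (star_mem hy) hz))]

theorem fib_conj (hφ : IsCState M A φ) (hy : y ∈ M) (hz : z ∈ M) (χ : Spec A) :
    starRingEnd ℂ (fib φ χ y z) = fib φ χ z y := by
  rw [fib, fib, ← ev_star χ (hφ.expE_mem (mul_mem (star_mem hy) hz)),
    ← hφ.expE_star (mul_mem (star_mem hy) hz), star_mul, star_star]

theorem fib_self_nonneg (hφ : IsCState M A φ) (hy : y ∈ M) (χ : Spec A) : 0 ≤ fib φ χ y y :=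
  ev_nonneg χ (hφ.expE_mem (mul_mem (star_mem hy) hy))
    (hφ.expE_nonneg (mul_mem (star_mem hy) hy) (star_mul_self_nonneg y))

theorem fib_smul_left (hφ : IsCState M A φ) (hy : y ∈ M) (hz : z ∈ M) (c : ℂ) (χ : Spec A) :
    fib φ χ (c • y) z = starRingEnd ℂ c * fib φ χ y z := by
  rw [← fib_conj hφ hz (General.smul_mem' M hy c), fib_smul_right hφ hz hy, map_mul,
    fib_conj hφ hz hy]

/-- Cauchy-Schwarz. -/
theorem fib_eq_zero (hφ : IsCState M A φ) (hy : y ∈ M) (hz : z ∈ M) (h : fib φ χ z z = 0) :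
    fib φ χ y z = 0 := by
  by_contra hne
  set b := fib φ χ y z with hb
  have hb0 : 0 < Complex.normSq b := Complex.normSq_pos.2 hne
  set k := (fib φ χ y y).re
  set t : ℂ := -(((k + 1) / (2 * Complex.normSq b) : ℝ) : ℂ) * starRingEnd ℂ b with ht
  have h0 := fib_self_nonneg hφ (add_mem hy (General.smul_mem' M hz t)) χ
  rw [fib_add_left hφ hy (General.smul_mem' M hz t) (add_mem hy (General.smul_mem' M hz t)),
    fib_add_right hφ hy hy (General.smul_mem' M hz t),
    fib_add_right hφ (General.smul_mem' M hz t) hy (General.smul_mem' M hz t),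
    fib_smul_right hφ hy hz, fib_smul_left hφ hz hy, fib_smul_left hφ hz (General.smul_mem' M hz t),
    fib_smul_right hφ hz hz, h, mul_zero, mul_zero, add_zero, ← fib_conj hφ hy hz, ← hb] at h0
  have e : t * b + starRingEnd ℂ t * starRingEnd ℂ b = -((k + 1 : ℝ) : ℂ) := by
    simp only [ht, map_mul, map_neg, Complex.conj_ofReal, Complex.conj_conj]
    have hn : starRingEnd ℂ b * b = (Complex.normSq b : ℂ) := (Complex.normSq_eq_conj_mul_self).symm
    rw [mul_assoc, hn, mul_assoc, mul_comm b, hn]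
    push_cast
    field_simp [Complex.ofReal_ne_zero.2 hb0.ne']
    ring
  have := (Complex.le_def.1 h0).1
  rw [add_assoc, e] at this
  simp [k] at this
  linarith

theorem FEq.fib_right (hφ : IsCState M A φ) (hy : y ∈ M) (hz : z ∈ M) (hw : w ∈ M)
    (h : FEq φ χ y z) : fib φ χ w y = fib φ χ w z := by
  have := fib_eq_zero hφ hw (sub_mem hy hz) h
  have e : fib φ χ w y = fib φ χ w (y - z) + fib φ χ w z := by
    rw [← fib_add_right hφ hw (sub_mem hy hz) hz, sub_add_cancel]
  rw [e, this, zero_add]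

theorem FEq.fib_self (hφ : IsCState M A φ) (hy : y ∈ M) (hz : z ∈ M)
    (h : FEq φ χ y z) : fib φ χ y y = fib φ χ z z := by
  rw [h.fib_right hφ hy hz hy, ← fib_conj hφ hz hy, h.fib_right hφ hy hz hz, fib_conj hφ hz hz]

theorem FEq.rfl' (hφ : IsCState M A φ) : FEq φ χ y y := by
  rw [FEq, sub_self, fib, mul_zero, hφ.expE_of_mem (zero_mem A), ev_zero]

theorem FEq.trans (hφ : IsCState M A φ) (hy : y ∈ M) (hz : z ∈ M) (hw : w ∈ M)
    (h : FEq φ χ y z) (h' : FEq φ χ z w) : FEq φ χ y w := by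
  have h1 := sub_mem hy hz
  have h2 := sub_mem hz hw
  rw [FEq, show y - w = (y - z) + (z - w) by abel, fib_add_left hφ h1 h2 (add_mem h1 h2),
    fib_add_right hφ h1 h1 h2, fib_add_right hφ h2 h1 h2, h, h',
    fib_eq_zero hφ h1 h2 h', fib_eq_zero hφ h2 h1 h]
  simp

theorem FEq.add (hφ : IsCState M A φ) (hy : y ∈ M) (hz : z ∈ M) (hy' : y' ∈ M) (hz' : z' ∈ M)
    (h : FEq φ χ y z) (h' : FEq φ χ y' z') : FEq φ χ (y + y') (z + z') := by
  have h1 := sub_mem hy hz
  have h2 := sub_mem hy' hz'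
  rw [FEq, add_sub_add_comm, fib_add_left hφ h1 h2 (add_mem h1 h2),
    fib_add_right hφ h1 h1 h2, fib_add_right hφ h2 h1 h2, h, h',
    fib_eq_zero hφ h1 h2 h', fib_eq_zero hφ h2 h1 h]
  simp

theorem FEq.sum (hφ : IsCState M A φ) {ι : Type*} (s : Finset ι) {f g : ι → H →L[ℂ] H}
    (hf : ∀ i, f i ∈ M) (hg : ∀ i, g i ∈ M) (h : ∀ i ∈ s, FEq φ χ (f i) (g i)) :
    FEq φ χ (∑ i ∈ s, f i) (∑ i ∈ s, g i) := by
  classical
  induction s using Finset.induction_on with
  | empty => exact FEq.rfl' hφ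
  | insert i s hi ih =>
    rw [Finset.sum_insert hi, Finset.sum_insert hi]
    exact (h i (Finset.mem_insert_self i s)).add hφ (hf i) (hg i) (sum_mem fun j _ => hf j)
      (sum_mem fun j _ => hg j) (ih fun j hj => h j (Finset.mem_insert_of_mem hj))

theorem fib_mul_left_le (hφ : IsCState M A φ) (hy : y ∈ M) (hz : z ∈ M) (χ : Spec A) :
    (fib φ χ (y * z) (y * z)).re ≤ ‖y‖ ^ 2 * (fib φ χ z z).re := by
  have hS : ((‖y‖ ^ 2 : ℝ) : ℂ) • (1 : H →L[ℂ] H) - star y * y ∈ M :=
    sub_mem (General.smul_one_mem M _) (mul_mem (star_mem hy) hy)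
  have hzz := mul_mem (star_mem hz) hz
  have hyz := mul_mem (star_mem (mul_mem hy hz)) (mul_mem hy hz)
  have h0 := ev_nonneg χ (hφ.expE_mem (mul_mem (mul_mem (star_mem hz) hS) hz))
    (hφ.expE_nonneg (mul_mem (mul_mem (star_mem hz) hS) hz)
      (star_left_conjugate_nonneg (norm_star_mul_le y) z))
  have e : star z * (((‖y‖ ^ 2 : ℝ) : ℂ) • 1 - star y * y) * z =
      ((‖y‖ ^ 2 : ℝ) : ℂ) • (star z * z) - star (y * z) * (y * z) := by
    rw [mul_sub, sub_mul, mul_smul_comm, mul_one, smul_mul_assoc, star_mul]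
    simp only [mul_assoc]
  rw [e, hφ.expE_sub (General.smul_mem' M hzz _) hyz, hφ.expE_smul hzz,
    ev_sub χ (General.smul_mem' A (hφ.expE_mem hzz) _) (hφ.expE_mem hyz),
    ev_smul χ (hφ.expE_mem hzz)] at h0
  have := (Complex.le_def.1 h0).1
  simp only [fib]
  have e1 : (((‖y‖ ^ 2 : ℝ) : ℂ) * ev χ (expE A φ (star z * z))).re =
      ‖y‖ ^ 2 * (ev χ (expE A φ (star z * z))).re := Complex.re_ofReal_mul _ _
  rw [Complex.zero_re, Complex.sub_re, e1] at this
  linarith

theorem FEq.mul_left (hφ : IsCState M A φ) (hy : y ∈ M) (hz : z ∈ M) (hw : w ∈ M)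
    (h : FEq φ χ y z) : FEq φ χ (w * y) (w * z) := by
  have h1 := fib_mul_left_le hφ hw (sub_mem hy hz) χ
  rw [h, Complex.zero_re, mul_zero] at h1
  have h2 := Complex.le_def.1 (fib_self_nonneg hφ (mul_mem hw (sub_mem hy hz)) χ)
  rw [FEq, ← mul_sub]
  exact Complex.ext (le_antisymm h1 h2.1) h2.2.symm

/-- Right multiplication by an element of `A`. -/
theorem fEq_mul_right (hφ : IsCState M A φ) (hy : y ∈ M) {a : H →L[ℂ] H} (ha : a ∈ A)
    (χ : Spec A) : FEq φ χ (y * a) (ev χ a • y) := by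
  set d := a - ev χ a • (1 : H →L[ℂ] H) with hd
  have hdA : d ∈ A := sub_mem ha (General.smul_one_mem A _)
  have hd0 : ev χ d = 0 := by
    rw [hd, ev_sub χ ha (General.smul_one_mem A _), ev_smul χ (one_mem A), ev_one, mul_one, sub_self]
  have hyy := mul_mem (star_mem hy) hy
  rw [FEq, show y * a - ev χ a • y = y * d by rw [hd, mul_sub, mul_smul_comm, mul_one], fib,
    star_mul, show star d * star y * (y * d) = star d * (star y * y * d) by simp only [mul_assoc],
    hφ.expE_mul_left (star_mem hdA) (mul_mem hyy (hφ.masa.le d hdA)),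
    hφ.expE_mul_right hdA hyy, ev_mul χ (star_mem hdA) (mul_mem (hφ.expE_mem hyy) hdA),
    ev_mul χ (hφ.expE_mem hyy) hdA, hd0, mul_zero, mul_zero]

/-- Elements of `A` act on a normaliser by the value at its point. -/
theorem fEq_A_mul (hφ : IsCState M A φ) (hv : IsPN M A v) (hχ : χ ∈ dom A v) {a : H →L[ℂ] H}
    (ha : a ∈ A) : FEq φ χ (a * v) (ev (pt v χ) a • v) := by
  rw [ev_pt hφ.masa hv hχ ha]
  have e : a * v = v * (star v * a * v) := by
    calc a * v = a * (v * star v * v) := by rw [hv.tgt_mul]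
      _ = a * (v * star v) * v := by simp only [mul_assoc]
      _ = v * star v * a * v := by rw [(hφ.masa.comm _ ha _ hv.tgt_memA).eq]
      _ = _ := by simp only [mul_assoc]
  rw [e]
  exact fEq_mul_right hφ hv.mem (hv.conj' a ha) χ

theorem fEq_zero_of_notMem (hφ : IsCState M A φ) (hv : IsPN M A v) (hχ : χ ∉ dom A v) :
    FEq φ χ v 0 := by
  rw [FEq, sub_zero, fib, hφ.expE_of_mem hv.src_memA, ev_eq_zero_iff hv.src_memA hv.isStarProjection_src]
  exact hχ

theorem fib_self_pn (hφ : IsCState M A φ) (hv : IsPN M A v) (hχ : χ ∈ dom A v) :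
    fib φ χ v v = 1 := by
  rw [fib, hφ.expE_of_mem hv.src_memA]
  exact hχ

/-- The fibres at distinct points are orthogonal. -/
theorem fib_eq_zero_of_ne (hφ : IsCState M A φ) (hu : IsPN M A u) (hv : IsPN M A v)
    (h : ¬ (χ ∈ dom A u ∧ χ ∈ dom A v ∧ pt u χ = pt v χ)) : fib φ χ u v = 0 := by
  by_cases hud : χ ∈ dom A u
  · by_cases hvd : χ ∈ dom A v
    · obtain ⟨p, hp, hpp, hup, hvp⟩ := exists_separating hφ.masa.comm
        (fun e => h ⟨hud, hvd, e⟩)
      have hpu := (fEq_A_mul hφ hu hud hp)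
      have hpv := (fEq_A_mul hφ hv hvd hp)
      rw [mem_clop.1 hup, one_smul] at hpu
      rw [(ev_eq_zero_iff hp hpp).2 hvp, zero_smul] at hpv
      have hpM := hφ.masa.le p hp
      have h1 : fib φ χ u (p * v) = 0 := by
        rw [hpv.fib_right hφ (mul_mem hpM hv.mem) (zero_mem M) hu.mem, fib, mul_zero,
          hφ.expE_of_mem (zero_mem A), ev_zero]
      have h2 : fib φ χ (p * u) v = fib φ χ u v := by
        rw [← fib_conj hφ hv.mem (mul_mem hpM hu.mem),
          hpu.fib_right hφ (mul_mem hpM hu.mem) hu.mem hv.mem, fib_conj hφ hv.mem hu.mem]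
      rw [← h2, fib, star_mul, hpp.isSelfAdjoint.star_eq, mul_assoc]
      exact h1
    · rw [(fEq_zero_of_notMem hφ hv hvd).fib_right hφ hv.mem (zero_mem M) hu.mem, fib, mul_zero,
        hφ.expE_of_mem (zero_mem A), ev_zero]
  · rw [← fib_conj hφ hv.mem hu.mem,
      (fEq_zero_of_notMem hφ hu hud).fib_right hφ hu.mem (zero_mem M) hv.mem, fib, mul_zero,
      hφ.expE_of_mem (zero_mem A), ev_zero, map_zero]

/-- Frolík: where two normalisers have the same point they agree up to `A`. -/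
theorem exists_nhds_same (hφ : IsCState M A φ) (hu : IsPN M A u) (hv : IsPN M A v) (χ : Spec A) :
    ∃ e ∈ A, IsStarProjection e ∧ χ ∈ clop A e ∧
      ((χ ∈ dom A u ∧ χ ∈ dom A v ∧ pt u χ = pt v χ) →
        (∀ ψ ∈ clop A e, ψ ∈ dom A u ∧ ψ ∈ dom A v ∧ pt u ψ = pt v ψ) ∧
          ∃ a ∈ A, ‖ev χ a‖ = 1 ∧ v * e = u * a) := by
  obtain ⟨P, hP⟩ := exists_atoms hφ (v := ![v, u]) (fun i => by fin_cases i <;> assumption)
  obtain ⟨k, hk⟩ : ∃ k, χ ∈ clop A (P.p k) := by
    by_contra hne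
    have h1 : ev χ (∑ k, P.p k) = 1 := by rw [P.isPart.sum_eq, ev_one]
    rw [ev_sum χ _ fun k => P.isPart.mem k, Finset.sum_eq_zero fun k _ => (ev_eq_zero_iff
      (P.isPart.mem k) (P.isPart.proj k)).2 fun h => hne ⟨k, h⟩] at h1
    exact zero_ne_one h1
  refine ⟨P.p k, P.isPart.mem k, P.isPart.proj k, hk, ?_⟩
  rintro ⟨hud, hvd, heq⟩
  have he := P.isPart.mem k
  have hep := P.isPart.proj k
  rcases (hP P (Part.refines_refl P) k).2 0 1 with ⟨a, ha, hva⟩ | horth
  · simp only [Matrix.cons_val_zero, Matrix.cons_val_one] at hva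
    have hpt : ∀ (b : H →L[ℂ] H), b ∈ A → star (v * P.p k) * b * (v * P.p k) =
        star a * (star u * b * u) * a := fun b _ => by
      rw [hva, star_mul]; simp only [mul_assoc]
    have hev : ∀ (ψ : Spec A) (b : H →L[ℂ] H), b ∈ A → ψ ∈ clop A (P.p k) →
        ev ψ (star v * b * v) = (Complex.normSq (ev ψ a) : ℂ) * ev ψ (star u * b * u) := by
      intro ψ b hb hψ
      have := congrArg (ev ψ) (hpt b hb)
      rw [star_mul, hep.isSelfAdjoint.star_eq,
        show P.p k * star v * b * (v * P.p k) = P.p k * (star v * b * v) * P.p k by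
          simp only [mul_assoc],
        ev_mul ψ (mul_mem he (hv.conj' b hb)) he, ev_mul ψ he (hv.conj' b hb), mem_clop.1 hψ,
        ev_mul ψ (mul_mem (star_mem ha) (hu.conj' b hb)) ha, ev_mul ψ (star_mem ha) (hu.conj' b hb),
        ev_star ψ ha] at this
      rw [Complex.normSq_eq_conj_mul_self]
      linear_combination this
    have hn : ∀ ψ ∈ clop A (P.p k), ev ψ (star v * v) =
        (Complex.normSq (ev ψ a) : ℂ) * ev ψ (star u * u) := fun ψ hψ => by
      simpa using hev ψ 1 (one_mem A) hψ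
    refine ⟨fun ψ hψ => ?_, a, ha, ?_, hva⟩
    · have hvψ : ψ ∈ dom A v := by
        rcases (hP P (Part.refines_refl P) k).1 0 with hs | hs
        · have hs' : star v * v * P.p k = P.p k := by simpa using hs
          rw [← hs', clop_mul hv.src_memA hv.isStarProjection_src he] at hψ
          exact hψ.1
        · exfalso
          have hs' : v * P.p k = 0 := by simpa using hs
          have h1 : χ ∈ clop A (star v * v * P.p k) := by
            rw [clop_mul hv.src_memA hv.isStarProjection_src he]; exact ⟨hvd, hk⟩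
          rw [mul_assoc, hs', mul_zero, clop_zero] at h1
          exact h1
      have h1 := hn ψ hψ
      rw [mem_clop.1 hvψ] at h1
      have huψ : ψ ∈ dom A u := by
        rcases ev_proj ψ hu.src_memA hu.isStarProjection_src with h | h
        · rw [h, mul_zero] at h1; exact absurd h1 one_ne_zero
        · exact h
      refine ⟨huψ, hvψ, spec_ext fun b hb => ?_⟩
      rw [mem_clop.1 huψ, mul_one] at h1
      rw [ev_pt hφ.masa hu huψ hb, ev_pt hφ.masa hv hvψ hb, hev ψ b hb hψ, ← h1, one_mul]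
    · have h1 := hn χ hk
      rw [mem_clop.1 hvd, mem_clop.1 hud, mul_one, Complex.normSq_eq_norm_sq] at h1
      have h2 : ‖ev χ a‖ ^ 2 = 1 := by exact_mod_cast h1.symm
      exact (pow_eq_one_iff_of_nonneg (norm_nonneg _) two_ne_zero).1 h2
  · exfalso
    simp only [Matrix.cons_val_zero, Matrix.cons_val_one] at horth
    have h1 : pt v χ ∈ clop A (v * P.p k * star v) := by
      rw [mem_clop, ev_pt hφ.masa hv hvd (hv.conj _ he),
        show star v * (v * P.p k * star v) * v = star v * v * P.p k * (star v * v) by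
          simp only [mul_assoc],
        ev_mul χ (mul_mem hv.src_memA he) hv.src_memA, ev_mul χ hv.src_memA he, mem_clop.1 hvd,
        mem_clop.1 hk, one_mul, one_mul]
    have h2 : pt u χ ∈ clop A (u * P.p k * star u) := by
      rw [mem_clop, ev_pt hφ.masa hu hud (hu.conj _ he),
        show star u * (u * P.p k * star u) * u = star u * u * P.p k * (star u * u) by
          simp only [mul_assoc],
        ev_mul χ (mul_mem hu.src_memA he) hu.src_memA, ev_mul χ hu.src_memA he, mem_clop.1 hud,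
        mem_clop.1 hk, one_mul, one_mul]
    rw [heq] at h2
    have h3 : pt v χ ∈ clop A (v * P.p k * star v * (u * P.p k * star u)) := by
      rw [clop_mul (hv.conj _ he) (hv.conj_proj hφ.masa he hep) (hu.conj _ he)]
      exact ⟨h1, h2⟩
    rw [horth, clop_zero] at h3
    exact h3

/-- The set where two normalisers have the same point. -/
def same (A : VonNeumannAlgebra H) (u v : H →L[ℂ] H) : Set (Spec A) :=
  {χ | χ ∈ dom A u ∧ χ ∈ dom A v ∧ pt u χ = pt v χ}

theorem isClopen_same (hφ : IsCState M A φ) (hu : IsPN M A u) (hv : IsPN M A v) :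
    IsClopen (same A u v) := by
  refine ⟨(isClopen_dom hu).1.inter ((isClopen_dom hv).1.inter
    (isClosed_eq (continuous_pt hφ.masa hu) (continuous_pt hφ.masa hv))), ?_⟩
  rw [isOpen_iff_forall_mem_open]
  intro χ hχ
  obtain ⟨e, he, hep, hχe, h⟩ := exists_nhds_same hφ hu hv χ
  exact ⟨clop A e, (h hχ).1, (isClopen_clop he hep).2, hχe⟩

/-- Two normalisers with the same point agree in the fibre up to a phase. -/
theorem fEq_same (hφ : IsCState M A φ) (hu : IsPN M A u) (hv : IsPN M A v) (hχ : χ ∈ same A u v) :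
    ∃ c : ℂ, ‖c‖ = 1 ∧ FEq φ χ v (c • u) := by
  obtain ⟨e, he, -, hχe, h⟩ := exists_nhds_same hφ hu hv χ
  obtain ⟨a, ha, hn, hva⟩ := (h hχ).2
  refine ⟨ev χ a, hn, ?_⟩
  have h1 := fEq_mul_right hφ hv.mem he χ
  rw [mem_clop.1 hχe, one_smul, hva] at h1
  have h2 : FEq φ χ v (u * a) := by
    rw [FEq, ← neg_sub (u * a) v, fib, star_neg, neg_mul_neg]
    exact h1
  exact h2.trans hφ hv.mem (mul_mem hu.mem (hφ.masa.le a ha))
    (General.smul_mem' M hu.mem _) (fEq_mul_right hφ hu.mem ha χ)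

end Vale.Agent.P078.General.Single.Colours
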