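import Vale.Agent.P078.Colours.Colour
import Vale.Agent.P078.Colours.Loc
import Vale.Agent.P078.Single.Pattern

/-!
# From inequalities on a residual set to inequalities for the state; marginals of uniform seeds
-/

namespace Vale.Agent.P078.General.Single.Colours

open scoped InnerProductSpace Topology ComplexOrder
open Filter WeakDual Vale.Agent.P078.General.Orbit

universe u

variable {H : Type u} [NormedAddCommGroup H] [InnerProductSpace ℂ H] [CompleteSpace H]
variable {M A : VonNeumannAlgebra H} {φ : (H →L[ℂ] H) →ₗ[ℂ] ℂ}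

/-- Uniform seeds restricted along an injective map are uniform. -/
theorem av_comp_injective {I J β : Type*} [Fintype I] [Fintype J] [DecidableEq I] [DecidableEq J]
    [Fintype β] [Nonempty β] {j : J → I} (hj : Function.Injective j) (g : (J → β) → ℝ) :
    av (fun c : I → β => g (c ∘ j)) = av g := by
  classical
  let e : (I → β) ≃ ((J → β) × ({i // i ∉ Set.range j} → β)) :=
    (Equiv.piEquivPiSubtypeProd (fun i => i ∈ Set.range j) fun _ => β).trans
      (Equiv.prodCongr (Equiv.arrowCongr (Equiv.ofInjective j hj).symm (Equiv.refl β)) (Equiv.refl _))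
  have h1 : ∑ c : I → β, g (c ∘ j) = ∑ t : (J → β) × ({i // i ∉ Set.range j} → β), g t.1 := by
    rw [← e.sum_comp]
    refine Finset.sum_congr rfl fun c _ => congrArg g (funext fun i => ?_)
    simp [e, Equiv.ofInjective]
  have hp : (Fintype.card ({i // i ∉ Set.range j} → β) : ℝ) ≠ 0 := by
    exact_mod_cast Fintype.card_ne_zero
  rw [av, av, h1, Fintype.card_congr e, Fintype.card_prod, Fintype.sum_prod_type]
  simp only [Finset.sum_const, Finset.card_univ, nsmul_eq_mul, ← Finset.mul_sum]
  push_cast
  field_simp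

theorem forall_of_residual {P : Spec A → Prop} (hP : IsClosed {χ | P χ})
    (h : ∀ᶠ χ in residual (Spec A), P χ) (χ : Spec A) : P χ := by
  have hd := dense_of_mem_residual h
  have : (Set.univ : Set (Spec A)) ⊆ {χ | P χ} := hd.closure_eq ▸ hP.closure_subset
  exact this (Set.mem_univ χ)

/-- A mean of squares is bounded when the mean fibre norm is bounded at residually many points. -/
theorem av_sq_le (hφ : IsCState M A φ) {α : Type*} [Fintype α] {z : α → H →L[ℂ] H}
    (hz : ∀ a, z a ∈ M) {B : ℝ}
    (h : ∀ᶠ χ in residual (Spec A), av (fun a => (fib φ χ (z a) (z a)).re) ≤ B) :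
    av (fun a => sq φ (z a)) ≤ B * (φ 1).re := by
  classical
  set w : α → H →L[ℂ] H := fun a => expE A φ (star (z a) * z a)
  have hw : ∀ a, w a ∈ A := fun a => hφ.expE_mem (mul_mem (star_mem (hz a)) (hz a))
  set k : ℂ := (((Fintype.card α : ℝ)⁻¹ : ℝ) : ℂ) with hk
  set d := (B : ℂ) • (1 : H →L[ℂ] H) - k • ∑ a, w a with hd
  have hdA : d ∈ A := sub_mem (General.smul_one_mem A _)
    (General.smul_mem' A (sum_mem fun a _ => hw a) _)
  have hev : ∀ χ : Spec A, ev χ d = (B : ℂ) - k * ∑ a, fib φ χ (z a) (z a) := fun χ => by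
    rw [hd, ev_sub χ (General.smul_one_mem A _) (General.smul_mem' A (sum_mem fun a _ => hw a) _),
      ev_smul χ (one_mem A), ev_one, mul_one, ev_smul χ (sum_mem fun a _ => hw a),
      ev_sum χ _ hw]
    rfl
  have him : ∀ χ : Spec A, ∀ a, (fib φ χ (z a) (z a)).im = 0 := fun χ a =>
    (Complex.le_def.1 (fib_self_nonneg hφ (hz a) χ)).2.symm
  have hpos : ∀ χ : Spec A, 0 ≤ ev χ d := by
    refine forall_of_residual (isClosed_le continuous_const (continuous_ev d)) (h.mono fun χ hχ => ?_)
    rw [hev, hk, Complex.le_def]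
    simp only [Complex.zero_re, Complex.zero_im, Complex.sub_re, Complex.sub_im, Complex.ofReal_re,
      Complex.ofReal_im, Complex.mul_re, Complex.mul_im, Complex.re_sum, Complex.im_sum, him,
      Finset.sum_const_zero, zero_mul, mul_zero, sub_zero, add_zero, and_true]
    rw [av] at hχ
    rw [inv_mul_eq_div]
    linarith
  have h0 := (Complex.le_def.1 (hφ.map_nonneg (hφ.masa.le d hdA) (nonneg_of_ev hφ.masa.comm hdA hpos))).1
  rw [hd, map_sub, map_smul, map_smul, map_sum, Complex.zero_re, Complex.sub_re, smul_eq_mul,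
    smul_eq_mul, Complex.re_ofReal_mul, hk, Complex.re_ofReal_mul, Complex.re_sum] at h0
  have e : ∀ a, (φ (w a)).re = sq φ (z a) := fun a => by
    rw [sq, hφ.map_expE (mul_mem (star_mem (hz a)) (hz a))]
  simp only [e] at h0
  rw [av, div_eq_inv_mul]
  linarith

end Vale.Agent.P078.General.Single.Colours
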