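import Vale.Agent.P078.Single.Tree

/-!
# The spectrum of an abelian von Neumann algebra: characters, clopen sets, projections
-/

namespace Vale.Agent.P078.General.Single

open scoped InnerProductSpace Topology ComplexOrder
open Filter WeakDual

universe u

variable {H : Type u} [NormedAddCommGroup H] [InnerProductSpace ℂ H] [CompleteSpace H]
variable {M A : VonNeumannAlgebra H}

namespace Colours

theorem isClosed_coe (A : VonNeumannAlgebra H) :
    IsClosed (A.toStarSubalgebra : Set (H →L[ℂ] H)) := by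
  have h := Set.isClosed_centralizer (Set.centralizer (A : Set (H →L[ℂ] H)))
  rwa [A.centralizer_centralizer, ← A.coe_toStarSubalgebra] at h

noncomputable instance instCStar (A : VonNeumannAlgebra H) : CStarAlgebra A.toStarSubalgebra :=
  StarSubalgebra.cstarAlgebra (h_closed := isClosed_coe A) A.toStarSubalgebra

/-- The spectrum of `A`. -/
abbrev Spec (A : VonNeumannAlgebra H) : Type u := characterSpace ℂ A.toStarSubalgebra

/-- The value of a character at an element of `A`, and `0` outside `A`. -/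
noncomputable def ev (χ : Spec A) (a : H →L[ℂ] H) : ℂ :=
  open scoped Classical in if h : a ∈ A then χ ⟨a, h⟩ else 0

theorem ev_of_mem (χ : Spec A) {a : H →L[ℂ] H} (ha : a ∈ A) : ev χ a = χ ⟨a, ha⟩ := dif_pos ha

theorem ev_add (χ : Spec A) {a b : H →L[ℂ] H} (ha : a ∈ A) (hb : b ∈ A) :
    ev χ (a + b) = ev χ a + ev χ b := by
  rw [ev_of_mem χ ha, ev_of_mem χ hb, ev_of_mem χ (add_mem ha hb), ← map_add]
  rfl

theorem ev_sub (χ : Spec A) {a b : H →L[ℂ] H} (ha : a ∈ A) (hb : b ∈ A) :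
    ev χ (a - b) = ev χ a - ev χ b := by
  rw [ev_of_mem χ ha, ev_of_mem χ hb, ev_of_mem χ (sub_mem ha hb), ← map_sub]
  rfl

theorem ev_mul (χ : Spec A) {a b : H →L[ℂ] H} (ha : a ∈ A) (hb : b ∈ A) :
    ev χ (a * b) = ev χ a * ev χ b := by
  rw [ev_of_mem χ ha, ev_of_mem χ hb, ev_of_mem χ (mul_mem ha hb), ← map_mul]
  rfl

theorem ev_smul (χ : Spec A) {a : H →L[ℂ] H} (ha : a ∈ A) (c : ℂ) :
    ev χ (c • a) = c * ev χ a := by
  rw [ev_of_mem χ ha, ev_of_mem χ (General.smul_mem' A ha c)]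
  exact map_smul χ c (⟨a, ha⟩ : A.toStarSubalgebra)

@[simp] theorem ev_one (χ : Spec A) : ev χ 1 = 1 := by
  rw [ev_of_mem χ (one_mem A)]
  exact map_one χ

@[simp] theorem ev_zero (χ : Spec A) : ev χ 0 = 0 := by
  rw [ev_of_mem χ (zero_mem A)]
  exact map_zero χ

theorem ev_star (χ : Spec A) {a : H →L[ℂ] H} (ha : a ∈ A) :
    ev χ (star a) = starRingEnd ℂ (ev χ a) := by
  rw [ev_of_mem χ ha, ev_of_mem χ (star_mem ha)]
  exact map_star (CharacterSpace.equivAlgHom χ) (⟨a, ha⟩ : A.toStarSubalgebra)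

theorem ev_sum (χ : Spec A) {ι : Type*} (s : Finset ι) {f : ι → H →L[ℂ] H} (hf : ∀ i, f i ∈ A) :
    ev χ (∑ i ∈ s, f i) = ∑ i ∈ s, ev χ (f i) := by
  classical
  induction s using Finset.induction_on with
  | empty => simp
  | insert i s hi ih =>
    rw [Finset.sum_insert hi, Finset.sum_insert hi, ev_add χ (hf i) (sum_mem fun j _ => hf j), ih]

theorem continuous_ev (a : H →L[ℂ] H) : Continuous fun χ : Spec A => ev χ a := by
  by_cases h : a ∈ A
  · simp only [ev_of_mem _ h]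
    exact (WeakDual.eval_continuous _).comp continuous_subtype_val
  · simp only [ev, dif_neg h]
    exact continuous_const

theorem ev_nonneg (χ : Spec A) {a : H →L[ℂ] H} (ha : a ∈ A) (h0 : 0 ≤ a) : 0 ≤ ev χ a := by
  obtain ⟨s, hs, hsa, rfl⟩ := exists_sqrt A ha h0
  conv_rhs => rw [show s * s = star s * s by rw [hsa.star_eq]]
  rw [ev_mul χ (star_mem hs) hs, ev_star χ hs, ← Complex.normSq_eq_conj_mul_self]
  exact_mod_cast Complex.normSq_nonneg _

theorem norm_ev_le (χ : Spec A) (a : H →L[ℂ] H) : ‖ev χ a‖ ≤ ‖a‖ := by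
  by_cases h : a ∈ A
  · rw [ev_of_mem χ h]
    have : Nontrivial A.toStarSubalgebra := by
      refine ⟨⟨0, 1, fun e => ?_⟩⟩
      have := congrArg χ e
      rw [map_zero, map_one] at this
      exact zero_ne_one this
    exact spectrum.norm_le_norm_of_mem (A := A.toStarSubalgebra)
      (CharacterSpace.apply_mem_spectrum χ (⟨a, h⟩ : A.toStarSubalgebra))
  · simp [ev, dif_neg h]

theorem ev_proj (χ : Spec A) {p : H →L[ℂ] H} (hp : p ∈ A) (hpp : IsStarProjection p) :
    ev χ p = 0 ∨ ev χ p = 1 := by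
  have h := ev_mul χ hp hp
  rw [hpp.isIdempotentElem.eq] at h
  exact IsIdempotentElem.iff_eq_zero_or_one.1 h.symm

/-- The clopen set of a projection. -/
def clop (A : VonNeumannAlgebra H) (p : H →L[ℂ] H) : Set (Spec A) := {χ | ev χ p = 1}

theorem mem_clop {χ : Spec A} {p : H →L[ℂ] H} : χ ∈ clop A p ↔ ev χ p = 1 := Iff.rfl

theorem ev_eq_zero_iff {χ : Spec A} {p : H →L[ℂ] H} (hp : p ∈ A) (hpp : IsStarProjection p) :
    ev χ p = 0 ↔ χ ∉ clop A p := by
  rcases ev_proj χ hp hpp with h | h <;> simp [mem_clop, h]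

theorem isClopen_clop {p : H →L[ℂ] H} (hp : p ∈ A) (hpp : IsStarProjection p) :
    IsClopen (clop A p) := by
  refine ⟨isClosed_eq (continuous_ev p) continuous_const, ?_⟩
  have e : clop A p = {χ | ev χ p ≠ 0} := by
    ext χ
    rw [Set.mem_ofPred_eq, Ne, ev_eq_zero_iff hp hpp, not_not]
  rw [e]
  exact isOpen_ne_fun (continuous_ev p) continuous_const

theorem clop_mul {p q : H →L[ℂ] H} (hp : p ∈ A) (hpp : IsStarProjection p) (hq : q ∈ A) :
    clop A (p * q) = clop A p ∩ clop A q := by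
  ext χ
  rw [Set.mem_inter_iff, mem_clop, mem_clop, mem_clop, ev_mul χ hp hq]
  rcases ev_proj χ hp hpp with h | h <;> simp [h]

theorem clop_compl {p : H →L[ℂ] H} (hp : p ∈ A) (hpp : IsStarProjection p) :
    clop A (1 - p) = (clop A p)ᶜ := by
  ext χ
  rw [Set.mem_compl_iff, mem_clop, mem_clop, ev_sub χ (one_mem A) hp, ev_one]
  rcases ev_proj χ hp hpp with h | h <;> simp [h]

@[simp] theorem clop_one : clop A 1 = Set.univ := by ext χ; simp [mem_clop]

@[simp] theorem clop_zero : clop A 0 = ∅ := by ext χ; simp [mem_clop]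

/-- Gelfand: an element of `A` is determined by its values, and all continuous functions occur. -/
theorem gelfand (hc : ∀ a ∈ A, ∀ b ∈ A, Commute a b) :
    (∀ a ∈ A, ∀ b ∈ A, (∀ χ : Spec A, ev χ a = ev χ b) → a = b) ∧
      ∀ f : C(Spec A, ℂ), ∃ a ∈ A, ∀ χ : Spec A, ev χ a = f χ := by
  let : CommCStarAlgebra A.toStarSubalgebra :=
    { instCStar A with mul_comm := fun a b => Subtype.ext (hc a a.2 b b.2).eq }
  refine ⟨fun a ha b hb h => ?_, fun f => ?_⟩
  · refine congrArg Subtype.val ((gelfandStarTransform A.toStarSubalgebra).injective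
      (a₁ := ⟨a, ha⟩) (a₂ := ⟨b, hb⟩) (ContinuousMap.ext fun χ => ?_))
    have := h χ
    rwa [ev_of_mem χ ha, ev_of_mem χ hb] at this
  · obtain ⟨a, rfl⟩ := (gelfandStarTransform A.toStarSubalgebra).surjective f
    exact ⟨a, a.2, fun χ => ev_of_mem χ a.2⟩

theorem eq_of_ev (hc : ∀ a ∈ A, ∀ b ∈ A, Commute a b) {a b : H →L[ℂ] H} (ha : a ∈ A) (hb : b ∈ A)
    (h : ∀ χ : Spec A, ev χ a = ev χ b) : a = b :=
  (gelfand hc).1 a ha b hb h

theorem clop_inj (hc : ∀ a ∈ A, ∀ b ∈ A, Commute a b) {p q : H →L[ℂ] H} (hp : p ∈ A)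
    (hpp : IsStarProjection p) (hq : q ∈ A) (hqp : IsStarProjection q)
    (h : clop A p = clop A q) : p = q := by
  refine eq_of_ev hc hp hq fun χ => ?_
  rcases ev_proj χ hp hpp with h1 | h1
  · rw [h1, eq_comm, ev_eq_zero_iff hq hqp, ← h]
    exact (ev_eq_zero_iff hp hpp).1 h1
  · rw [h1]
    exact (h ▸ mem_clop.2 h1 : χ ∈ clop A q).symm

theorem exists_of_clopen (hc : ∀ a ∈ A, ∀ b ∈ A, Commute a b) {s : Set (Spec A)}
    (hs : IsClopen s) : ∃ p ∈ A, IsStarProjection p ∧ clop A p = s := by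
  classical
  obtain ⟨a, ha, hv⟩ := (gelfand hc).2
    ⟨s.indicator 1, continuous_one.indicator (by simp [hs.frontier_eq])⟩
  have hv' : ∀ χ, ev χ a = if χ ∈ s then 1 else 0 := fun χ => by
    rw [hv]; simp [Set.indicator]
  refine ⟨a, ha, ⟨eq_of_ev hc (mul_mem ha ha) ha fun χ => ?_,
    eq_of_ev hc (star_mem ha) ha fun χ => ?_⟩, ?_⟩
  · rw [ev_mul χ ha ha, hv']; split_ifs <;> simp
  · rw [ev_star χ ha, hv']; split_ifs <;> simp
  · ext χ
    rw [mem_clop, hv']
    split_ifs with h <;> simp [h]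

/-- The clopen sets of projections form a basis. -/
theorem exists_clop_subset (hc : ∀ a ∈ A, ∀ b ∈ A, Commute a b) {U : Set (Spec A)}
    (hU : IsOpen U) {χ₀ : Spec A} (hχ : χ₀ ∈ U) :
    ∃ p ∈ A, IsStarProjection p ∧ χ₀ ∈ clop A p ∧ clop A p ⊆ U := by
  have : CompletelyRegularSpace (Spec A) := inferInstance
  obtain ⟨f, hf0, hf1, -⟩ := exists_continuous_zero_one_of_isClosed isClosed_singleton
    hU.isClosed_compl (Set.disjoint_singleton_left.2 (not_not.2 hχ))
  obtain ⟨g, hg, hgv⟩ := (gelfand hc).2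
    ⟨fun χ => (f χ : ℂ), Complex.continuous_ofReal.comp f.continuous⟩
  have hgv' : ∀ χ, ev χ g = (f χ : ℂ) := fun χ => hgv χ
  have hgs : IsSelfAdjoint g := eq_of_ev hc (star_mem hg) hg fun χ => by
    rw [ev_star χ hg, hgv', Complex.conj_ofReal]
  set e := cut g (1 / 2) with he
  have hep : IsStarProjection e := isStarProjection_cut g _
  have heA : e ∈ A := cut_mem A hg hgs _
  have hsh : ((1 / 2 : ℝ) : ℂ) • (1 : H →L[ℂ] H) ∈ A := General.smul_one_mem A _
  set c : H →L[ℂ] H := ((1 / 2 : ℝ) : ℂ) • (1 : H →L[ℂ] H) with hc'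
  have hcs : IsSelfAdjoint c := by rw [hc', IsSelfAdjoint, star_smul, star_one, Complex.star_def, Complex.conj_ofReal]
  have hlow : 0 ≤ e * (c - g) * e := by
    refine nonneg_of_re_inner ?_ fun v => ?_
    · exact (hcs.sub hgs).conjugate_self hep.isSelfAdjoint
    · rw [mul_apply_eq_comp, mul_apply_eq_comp, inner_sa hep.isSelfAdjoint]
      have := re_inner_le_of_mem_cutSpace hgs (cut_mem_cutSpace g (1 / 2) v)
      rw [sub_apply, hc', smul_apply, one_apply_eq_self, inner_sub_left, inner_smul_left,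
        Complex.sub_re, Complex.conj_ofReal, Complex.re_ofReal_mul,
        show (⟪e v, e v⟫_ℂ).re = ‖e v‖ ^ 2 from inner_self_eq_norm_sq (𝕜 := ℂ) (e v)]
      linarith
  have hhigh : 0 ≤ (1 - e) * (g - c) * (1 - e) := by
    refine nonneg_of_re_inner ?_ fun v => ?_
    · exact (hgs.sub hcs).conjugate_self hep.one_sub.isSelfAdjoint
    · rw [mul_apply_eq_comp, mul_apply_eq_comp, inner_sa hep.one_sub.isSelfAdjoint]
      have hz : e ((1 - e) v) = 0 := by
        rw [← mul_apply_eq_comp, mul_sub, mul_one, hep.isIdempotentElem.eq, sub_self]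
        rfl
      have := le_re_inner_of_cut_eq_zero hgs hz
      rw [sub_apply, hc', smul_apply, one_apply_eq_self, inner_sub_left, inner_smul_left,
        Complex.sub_re, Complex.conj_ofReal, Complex.re_ofReal_mul,
        show (⟪(1 - e) v, (1 - e) v⟫_ℂ).re = ‖(1 - e) v‖ ^ 2 from
          inner_self_eq_norm_sq (𝕜 := ℂ) ((1 - e) v)]
      linarith
  have h1e : (1 : H →L[ℂ] H) - e ∈ A := sub_mem (one_mem A) heA
  have hA1 : e * (c - g) ∈ A := mul_mem heA (sub_mem hsh hg)
  have hA2 : (1 - e) * (g - c) ∈ A := mul_mem h1e (sub_mem hg hsh)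
  refine ⟨e, heA, hep, ?_, fun χ hχe => ?_⟩
  · rcases ev_proj χ₀ heA hep with h | h
    · have := ev_nonneg χ₀ (mul_mem hA2 h1e) hhigh
      rw [ev_mul χ₀ hA2 h1e, ev_mul χ₀ h1e (sub_mem hg hsh), ev_sub χ₀ hg hsh,
        hc', ev_smul χ₀ (one_mem A), ev_one, ev_sub χ₀ (one_mem A) heA, ev_one, h, hgv',
        hf0 (Set.mem_singleton χ₀)] at this
      norm_num [Complex.le_def] at this
    · exact h
  · by_contra hn
    have := ev_nonneg χ (mul_mem hA1 heA) hlow
    rw [ev_mul χ hA1 heA, ev_mul χ heA (sub_mem hsh hg), ev_sub χ hsh hg,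
      hc', ev_smul χ (one_mem A), ev_one, mem_clop.1 hχe, hgv', hf1 hn] at this
    norm_num [Complex.le_def] at this

end Colours

end Vale.Agent.P078.General.Single
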