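import Vale.Agent.P078.Colours.Spectrum

/-!
# With a faithful normal state the spectrum is extremally disconnected: sets with the property of
Baire are clopen modulo meagre sets, so they give projections
-/

namespace Vale.Agent.P078.General.Single

open scoped InnerProductSpace Topology ComplexOrder
open Filter WeakDual

universe u

variable {H : Type u} [NormedAddCommGroup H] [InnerProductSpace ℂ H] [CompleteSpace H]
variable {M A : VonNeumannAlgebra H} {φ : (H →L[ℂ] H) →ₗ[ℂ] ℂ}

namespace Colours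

/-- A partition of one into finitely many clopen sets gives a partition of projections. -/
theorem exists_part_of_clopen (hc : ∀ a ∈ A, ∀ b ∈ A, Commute a b) {κ : Type*} [Fintype κ]
    (s : κ → Set (Spec A)) (hs : ∀ k, IsClopen (s k)) (hd : ∀ k l, k ≠ l → Disjoint (s k) (s l))
    (hu : ∀ χ, ∃ k, χ ∈ s k) :
    ∃ p : κ → H →L[ℂ] H, IsPart A 1 p ∧ ∀ k, clop A (p k) = s k := by
  choose p hp hpp hps using fun k => exists_of_clopen hc (hs k)
  refine ⟨p, ⟨hp, hpp, fun k l hkl => ?_, eq_of_ev hc (sum_mem fun k _ => hp k) (one_mem A)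
    fun χ => ?_⟩, hps⟩
  · refine clop_inj hc (mul_mem (hp k) (hp l)) ((hpp k).mul (hpp l) (hc _ (hp k) _ (hp l)))
      (zero_mem A) (IsStarProjection.zero _) ?_
    rw [clop_mul (hp k) (hpp k) (hp l), hps, hps, clop_zero, (hd k l hkl).inter_eq]
  · obtain ⟨k, hk⟩ := hu χ
    rw [ev_one, ev_sum χ _ hp, Finset.sum_eq_single k (fun l _ hl => ?_) (by simp)]
    · rw [← hps k] at hk
      exact hk
    · rw [ev_eq_zero_iff (hp l) (hpp l), hps l]
      exact fun h => (hd l k hl).le_bot ⟨h, hk⟩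

theorem nonneg_of_ev (hc : ∀ a ∈ A, ∀ b ∈ A, Commute a b) {a : H →L[ℂ] H} (ha : a ∈ A)
    (h : ∀ χ : Spec A, 0 ≤ ev χ a) : 0 ≤ a := by
  obtain ⟨s, hs, hv⟩ := (gelfand hc).2
    ⟨fun χ => ((Real.sqrt (ev χ a).re : ℝ) : ℂ), Complex.continuous_ofReal.comp
      (Real.continuous_sqrt.comp (Complex.continuous_re.comp (continuous_ev a)))⟩
  have e : a = star s * s := eq_of_ev hc ha (mul_mem (star_mem hs) hs) fun χ => by
    rw [ev_mul χ (star_mem hs) hs, ev_star χ hs, hv]
    obtain ⟨h1, h2⟩ := Complex.le_def.1 (h χ)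
    apply Complex.ext
    · simpa using (Real.mul_self_sqrt h1).symm
    · simpa using h2.symm
  rw [e]
  exact star_mul_self_nonneg s

end Colours

namespace IsCState

open Colours

/-- The closure of an open set is clopen. -/
theorem exists_proj_closure (hφ : IsCState M A φ) {U : Set (Spec A)} (hU : IsOpen U) :
    ∃ e ∈ A, IsStarProjection e ∧ clop A e = closure U := by
  classical
  have hc := hφ.masa.comm
  set S : Set (H →L[ℂ] H) := {p | p ∈ A ∧ IsStarProjection p ∧ clop A p ⊆ U}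
  have hsup : ∀ p ∈ S, ∀ q ∈ S, p + q - p * q ∈ S ∧
      clop A (p + q - p * q) = clop A p ∪ clop A q := by
    rintro p ⟨hp, hpp, hpu⟩ q ⟨hq, hqp, hqu⟩
    have h1p : (1 : H →L[ℂ] H) - p ∈ A := sub_mem (one_mem A) hp
    have h1q : (1 : H →L[ℂ] H) - q ∈ A := sub_mem (one_mem A) hq
    have e : p + q - p * q = 1 - (1 - p) * (1 - q) := by
      simp only [mul_sub, sub_mul, one_mul, mul_one]
      abel
    have hpr : IsStarProjection ((1 - p) * (1 - q)) :=
      hpp.one_sub.mul hqp.one_sub (hc _ h1p _ h1q)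
    have hu : clop A (p + q - p * q) = clop A p ∪ clop A q := by
      rw [e, clop_compl (mul_mem h1p h1q) hpr, clop_mul h1p hpp.one_sub h1q, clop_compl hp hpp,
        clop_compl hq hqp, Set.compl_inter, compl_compl, compl_compl]
    exact ⟨⟨sub_mem (add_mem hp hq) (mul_mem hp hq), e ▸ hpr.one_sub,
      hu ▸ Set.union_subset hpu hqu⟩, hu⟩
  have h0 : (0 : H →L[ℂ] H) ∈ S := ⟨zero_mem A, (IsStarProjection.zero _), by simp⟩
  have hmono : ∀ {p q : H →L[ℂ] H}, p ∈ A → IsStarProjection p → q ∈ A → IsStarProjection q →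
      p * q = p → (φ p).re ≤ (φ q).re := by
    intro p q hp hpp hq hqp hpq
    have hqpp : q * p = p := (hc _ hq _ hp).eq.trans hpq
    have := hφ.sq_nonneg' (sub_mem (hφ.masa.le q hq) (hφ.masa.le p hp))
    rw [sq, star_sub, hpp.isSelfAdjoint.star_eq, hqp.isSelfAdjoint.star_eq] at this
    simp only [sub_mul, mul_sub, hpq, hqpp, hpp.isIdempotentElem.eq, hqp.isIdempotentElem.eq,
      map_sub, Complex.sub_re] at this
    linarith
  set V : Set ℝ := (fun p => (φ p).re) '' S
  have hbdd : BddAbove V := ⟨(φ 1).re, by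
    rintro _ ⟨p, ⟨hp, hpp, -⟩, rfl⟩
    exact hmono hp hpp (one_mem A) (IsStarProjection.one _) (mul_one p)⟩
  have hne : V.Nonempty := ⟨_, 0, h0, rfl⟩
  have hex : ∀ n : ℕ, ∃ p ∈ S, sSup V - 1 / ((n : ℝ) + 1) < (φ p).re := fun n => by
    obtain ⟨_, ⟨p, hp, rfl⟩, hlt⟩ := exists_lt_of_lt_csSup hne
      (sub_lt_self (sSup V) (show (0 : ℝ) < 1 / ((n : ℝ) + 1) by positivity))
    exact ⟨p, hp, hlt⟩
  choose q hq hqv using hex
  let E : ℕ → H →L[ℂ] H := fun n => Nat.rec (q 0) (fun k e => e + q (k + 1) - e * q (k + 1)) n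
  have hE : ∀ n, E n ∈ S := by
    intro n
    induction n with
    | zero => exact hq 0
    | succ k ih => exact (hsup _ ih _ (hq (k + 1))).1
  have hEq : ∀ n, clop A (q n) ⊆ clop A (E n) := by
    intro n
    cases n with
    | zero => exact subset_rfl
    | succ k =>
      show clop A (q (k + 1)) ⊆ clop A (E k + q (k + 1) - E k * q (k + 1))
      rw [(hsup _ (hE k) _ (hq (k + 1))).2]
      exact Set.subset_union_right
  have hEs : ∀ n, clop A (E n) ⊆ clop A (E (n + 1)) := fun n => by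
    show _ ⊆ clop A (E n + q (n + 1) - E n * q (n + 1))
    rw [(hsup _ (hE n) _ (hq (n + 1))).2]
    exact Set.subset_union_left
  have hprod : ∀ {p r : H →L[ℂ] H}, p ∈ A → IsStarProjection p → r ∈ A → IsStarProjection r →
      clop A p ⊆ clop A r → p * r = p := fun {p r} hp hpp hr hrp h =>
    clop_inj hc (mul_mem hp hr) (hpp.mul hrp (hc _ hp _ hr)) hp hpp
      (by rw [clop_mul hp hpp hr]; exact Set.inter_eq_left.2 h)
  obtain ⟨e, heA, hep, hee, helim, heφ⟩ := hφ.exists_proj_limit (fun n => (hE n).1)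
    (fun n => (hE n).2.1) (fun n => hprod (hE n).1 (hE n).2.1 (hE (n + 1)).1 (hE (n + 1)).2.1 (hEs n))
  refine ⟨e, heA, hep, subset_antisymm (fun χ hχ => ?_) ?_⟩
  · -- a nonzero projection below `e` and outside `U` misses every `E n`
    refine mem_closure_iff.2 fun W hW hχW => ?_
    by_contra hne'
    obtain ⟨p, hp, hpp, hχp, hpW⟩ := exists_clop_subset hc hW hχW
    have hpE : ∀ n, p * E n = 0 := fun n =>
      clop_inj hc (mul_mem hp (hE n).1) (hpp.mul (hE n).2.1 (hc _ hp _ (hE n).1)) (zero_mem A)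
        (IsStarProjection.zero _) (by
          rw [clop_mul hp hpp (hE n).1, clop_zero]
          exact Set.eq_empty_of_forall_notMem fun ψ hψ => hne' ⟨ψ, hpW hψ.1, (hE n).2.2 hψ.2⟩)
    have hpe : p * e = 0 := ContinuousLinearMap.ext fun w => by
      refine tendsto_nhds_unique ((p.continuous.tendsto _).comp (helim w)) ?_
      simp only [Function.comp_def, ← mul_apply_eq_comp, hpE, zero_apply]
      exact tendsto_const_nhds
    have h' : χ ∈ clop A (p * e) := by
      rw [clop_mul hp hpp heA]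
      exact ⟨hχp, hχ⟩
    simp [hpe] at h'
  · refine closure_minimal (fun χ hχ => ?_) (isClopen_clop heA hep).1
    obtain ⟨p, hp, hpp, hχp, hpU⟩ := exists_clop_subset hc hU hχ
    by_contra hne'
    set p' := p * (1 - e) with hp'
    have hp'A : p' ∈ A := mul_mem hp (sub_mem (one_mem A) heA)
    have hp'p : IsStarProjection p' := hpp.mul hep.one_sub (hc _ hp _ (sub_mem (one_mem A) heA))
    have hp'S : p' ∈ S := ⟨hp'A, hp'p, by
      rw [hp', clop_mul hp hpp (sub_mem (one_mem A) heA)]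
      exact Set.inter_subset_left.trans hpU⟩
    have hdis : ∀ n, E n * p' = 0 := fun n => by
      rw [hp', ← mul_assoc, (hc _ (hE n).1 _ hp).eq, mul_assoc, mul_sub, mul_one, hee n, sub_self,
        mul_zero]
    have hval : ∀ n, (φ (E n)).re + (φ p').re ≤ sSup V := fun n => by
      obtain ⟨hs, -⟩ := hsup _ (hE n) _ hp'S
      have := le_csSup hbdd ⟨_, hs, rfl⟩
      simpa [hdis n] using this
    have hlow : ∀ n : ℕ, sSup V - 1 / ((n : ℝ) + 1) ≤ (φ (E n)).re := fun n =>
      (hqv n).le.trans (hmono (hq n).1 (hq n).2.1 (hE n).1 (hE n).2.1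
        (hprod (hq n).1 (hq n).2.1 (hE n).1 (hE n).2.1 (hEq n)))
    have hp0 : (φ p').re ≤ 0 := by
      refine le_of_forall_pos_le_add fun η hη => ?_
      obtain ⟨N, hN⟩ := exists_nat_one_div_lt hη
      linarith [hval N, hlow N]
    have hz : p' = 0 := by
      refine hφ.faithful p' (hφ.masa.le _ hp'A) ?_
      have h1 := hφ.pos p' (hφ.masa.le _ hp'A)
      rw [hp'p.isSelfAdjoint.star_eq, hp'p.isIdempotentElem.eq] at h1 ⊢
      exact Complex.ext (le_antisymm hp0 (Complex.le_def.1 h1).1) (Complex.le_def.1 h1).2.symm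
    have h' : χ ∈ clop A p' := by
      rw [hp', clop_mul hp hpp (sub_mem (one_mem A) heA)]
      exact ⟨hχp, by rw [clop_compl heA hep]; exact hne'⟩
    simp [hz] at h'

/-- A set with the property of Baire is clopen modulo a meagre set. -/
theorem exists_proj_residual (hφ : IsCState M A φ) {s : Set (Spec A)}
    (hs : BaireMeasurableSet s) :
    ∃ e ∈ A, IsStarProjection e ∧ ∀ᶠ χ in residual (Spec A), χ ∈ s ↔ χ ∈ clop A e := by
  obtain ⟨U, hU, hsU⟩ := hs.residualEq_isOpen
  obtain ⟨e, he, hep, hcl⟩ := hφ.exists_proj_closure hU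
  refine ⟨e, he, hep, ?_⟩
  have := hsU.trans (closure_residualEq hU.isLocallyClosed).symm
  rw [Filter.eventuallyEq_set] at this
  exact hcl ▸ this

/-- A function to a finite set with Baire measurable fibres agrees, outside a meagre set, with a
partition. -/
theorem exists_part_residual (hφ : IsCState M A φ) {κ : Type*} [Fintype κ] [Nonempty κ]
    (f : Spec A → κ) (hf : ∀ k, BaireMeasurableSet {χ | f χ = k}) :
    ∃ p : κ → H →L[ℂ] H, IsPart A 1 p ∧
      ∀ᶠ χ in residual (Spec A), ∀ k, f χ = k ↔ χ ∈ clop A (p k) := by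
  classical
  choose e he hep hev using fun k => hφ.exists_proj_residual (hf k)
  set R := {χ : Spec A | ∀ k, f χ = k ↔ χ ∈ clop A (e k)}
  have hR : R ∈ residual (Spec A) :=
    (eventually_countable_forall.2 fun k => hev k :
      ∀ᶠ χ in residual (Spec A), ∀ k, f χ = k ↔ χ ∈ clop A (e k))
  have hdense := dense_of_mem_residual hR
  have hd : ∀ k l, k ≠ l → Disjoint (clop A (e k)) (clop A (e l)) := fun k l hkl => by
    rw [Set.disjoint_iff_inter_eq_empty]
    by_contra hne
    obtain ⟨χ, hχ, hχR⟩ := hdense.inter_open_nonempty _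
      ((isClopen_clop (he k) (hep k)).2.inter (isClopen_clop (he l) (hep l)).2)
      (Set.nonempty_iff_ne_empty.2 hne)
    exact hkl (((hχR k).2 hχ.1).symm.trans ((hχR l).2 hχ.2))
  have hu : ∀ χ, ∃ k, χ ∈ clop A (e k) := by
    intro χ
    by_contra hne
    have hopen : IsOpen (⋂ k, (clop A (e k))ᶜ) :=
      isOpen_iInter_of_finite fun k => (isClopen_clop (he k) (hep k)).1.isOpen_compl
    obtain ⟨ψ, hψ, hψR⟩ := hdense.inter_open_nonempty _ hopen ⟨χ, Set.mem_iInter.2 fun k hk =>
      hne ⟨k, hk⟩⟩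
    exact Set.mem_iInter.1 hψ (f ψ) ((hψR (f ψ)).1 rfl)
  obtain ⟨p, hp, hps⟩ := exists_part_of_clopen hφ.masa.comm (fun k => clop A (e k))
    (fun k => isClopen_clop (he k) (hep k)) hd hu
  exact ⟨p, hp, eventually_of_mem hR fun χ hχ k => (hps k).symm ▸ hχ k⟩

end IsCState

end Vale.Agent.P078.General.Single
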